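import Vale.Agent.P366.T6.RadMain355
import Vale.Agent.P366.T5.Union355

/-!
# Radial trace: the equality case
-/

open MeasureTheory Metric Filter Topology Set
open scoped BigOperators ENNReal ContDiff

noncomputable section
namespace Vale.Agent.P366

variable {n : ℕ}

/-- The assembled theorem, with an explicit round cut. -/
theorem assembled2_s (hn : 3 ≤ n) (D : Exterior n) (hAF : D.IsAF) (hDEC : D.DEC)
    (hT : D.Trapped) {m : ℝ} (hm : D.IsEnergy m) {P : E n} (hP : D.IsMomentum P)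
    {R1 : ℝ} (hR1 : IsGreatest (norm '' frontier D.Ω) R1) {φ : ℝ → ℝ}
    (hφ : ∀ x : E n, R1 ≤ ‖x‖ → D.g x = φ ‖x‖ • (1 : Matrix (Fin n) (Fin n) ℝ))
    (hc : ∀ x y : E n, R1 ≤ ‖x‖ → ‖x‖ = ‖y‖ → trS D.g D.K norm x = trS D.g D.K norm y) :
    ∃ R2 ρ : ℝ, R1 ≤ R2 ∧ 0 < ρ ∧
      D.area {x : E n | R2 ≤ ‖x‖} ≤ ENNReal.ofReal (omega n * ρ ^ (n - 1)) ∧ 0 < m ∧
      (ρ ^ (n - 2) / 2) ^ 2 ≤ m ^ 2 - ‖P‖ ^ 2 ∧
      ((ρ ^ (n - 2) / 2) ^ 2 = m ^ 2 - ‖P‖ ^ 2 → ∀ i, P i = 0) := by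
  have hn2 : 2 ≤ n := by omega
  have : Nonempty (Fin n) := ⟨⟨0, by omega⟩⟩
  have : Nontrivial (E n) := inferInstance
  obtain ⟨b, hb0, hbR, hbU⟩ := D.exists_b hn2 hR1
  have hout := D.outside_closed_subset hn2 hR1
  set d : RotData n := D.toRot hn2 hb0 hbR hbU hφ with hd
  have hk : ∀ x : E n, d.a ≤ ‖x‖ → d.kE x = d.kray hn2 ‖x‖ := fun x hx =>
    d.kray_spec hn2 hc hx
  obtain ⟨q, C, R0, hq, hR0, hdec⟩ := hAF
  have hq0 : 0 < q := by
    have : (3 : ℝ) ≤ n := by exact_mod_cast hn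
    linarith only [this, hq]
  have i00 : Fin n := ⟨0, by omega⟩
  have hf1 : Tendsto d.f atTop (𝓝 1) := d.lim_f' D hn2 rfl hq0 (R0 := R0) (C := C)
    (fun x hx i j => (hdec x hx i j i00 i00).1)
  have hl : ∀ᶠ R in atTop, |d.l R| ≤ C * R ^ (-q - 1) := d.decay_l D hn2 rfl hf1 (R0 := R0)
    (fun x hx i j k => (hdec x hx i j k i00).2.1)
  have hkap : ∀ᶠ R in atTop, |d.kray hn2 R| ≤ ((n + n ^ 2 : ℝ) * C) * R ^ (-q - 1) :=
    d.decay_kap D hk hn2 rfl (R0 := R0) (fun x hx i j => (hdec x hx i j i00 i00).2.2.2.1)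
  have hG : d.Good2 (d.kray hn2) :=
    { hk := hk
      kap_diff := fun r hr => d.kray_diff hn2 hr
      dec := fun x hx => hDEC x (hout hx.le)
      trapped := by
        obtain ⟨⟨x0, hx0f, hx0n⟩, _⟩ := hR1
        obtain ⟨F, hF, hth⟩ := hT x0 hx0f
        have h1 := d.touch hn2 (Ω := D.Ω) (x0 := x0) hx0n hx0f hout hF hth
        rw [hk x0 (le_of_eq hx0n.symm)] at h1
        have h2 : ‖x0‖ = d.a := hx0n
        rw [h2] at h1
        exact h1
      lim_l := tendsto_mul_of_decay hq0 hl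
      lim_kap := tendsto_mul_of_decay hq0 hkap
      lim_f := hf1 }
  have hM := d.adm_M D hn2 rfl hq hf1 hl hkap hm
  have hPl := fun i => d.adm_P D hk hn rfl rfl hf1 hP i
  obtain ⟨R2, hR2, -, hE, hfin, heqc⟩ := (d.toReduced2 hn2 hG).main_s hn m (fun i => P i) hM hPl
  have hR2' : R1 ≤ R2 := hR2
  have hfR2 : 0 < d.f R2 := d.f_pos R2 (lt_of_lt_of_le d.hba hR2)
  have hR20 : 0 < R2 := (D.R1_pos hn2 hR1).trans_le hR2'
  refine ⟨R2, R2 * d.f R2, hR2', by (clear * - hR20 hfR2; positivity), ?_, hE, ?_⟩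
  · have := D.area_round d hn2 rfl hR2' (D.round_cut hn2 hR1 hR2').2
    rwa [mul_comm (d.f R2) R2] at this
  · have h1 : ‖P‖ ^ 2 = ∑ i, P i ^ 2 := EuclideanSpace.real_norm_sq_eq P
    rw [h1]
    exact ⟨hfin, heqc⟩

theorem penrose_stmt2_s (hn : 3 ≤ n) (D : Stmt.Exterior n) (hAF : D.IsAF) (hDEC : D.DEC)
    (hT : D.Trapped) {m : ℝ} {P : Fin n → ℝ} (hm : D.IsEnergy m) (hP : D.IsMomentum P)
    {R₁ : ℝ} (hR₁ : IsGreatest {r | ∃ x, D.F x = 0 ∧ Stmt.len x = r} R₁) {c k : ℝ → ℝ}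
    (hc : ∀ x, R₁ ≤ Stmt.len x → ∀ i j, D.g x i j = if i = j then c (Stmt.len x) else 0)
    (hk : ∀ x, R₁ ≤ Stmt.len x → Stmt.trS D.g D.K Stmt.len x = k (Stmt.len x)) :
    D.Amin ≠ ⊤ ∧ √(∑ i, P i ^ 2) < m ∧
    (D.Amin.toReal / Stmt.omega n) ^ (((n : ℝ) - 2) / (n - 1)) / 2 ≤
      √(m ^ 2 - ∑ i, P i ^ 2) ∧
    ((D.Amin.toReal / Stmt.omega n) ^ (((n : ℝ) - 2) / (n - 1)) / 2 =
      √(m ^ 2 - ∑ i, P i ^ 2) → P = 0) := by
  have hn2 : 2 ≤ n := by omega
  have : Nonempty (Fin n) := ⟨⟨0, by omega⟩⟩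
  have : Nontrivial (E n) := inferInstance
  have hR := Bridge.raw_R1 D hR₁
  have hR1 : 0 < R₁ := (Bridge.toRaw D).R1_pos hn2 hR
  have hout := (Bridge.toRaw D).outside_closed_subset hn2 hR
  have hne : ∀ {x : E n}, R₁ ≤ ‖x‖ → x ≠ 0 := fun {x} hx h => by
    rw [h, norm_zero] at hx; linarith only [hx, hR1]
  have hm' : (Bridge.toRaw D).IsEnergy m := energy_bridge D hm
  have hP' : (Bridge.toRaw D).IsMomentum (WithLp.toLp 2 P) := momentum_bridge D hP
  obtain ⟨R2, ρ, hR2, hρ, hA, hm0, hfin, hPz⟩ := assembled2_s hn (Bridge.toRaw D)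
    (Bridge.raw_AF D hn hAF) (Bridge.raw_DEC D hDEC) (Bridge.raw_Trapped D hT) hm' hP' hR
    (φ := c) (fun x hx => Bridge.raw_conf D hc x hx)
    (by
      intro x y hx hxy
      have hy : R₁ ≤ ‖y‖ := hxy ▸ hx
      have h1 := Bridge.raw_trS D (hne hx)
      have h2 := Bridge.raw_trS D (hne hy)
      rw [hk x hx] at h1
      rw [hk y hy] at h2
      rw [← h1, ← h2]
      change k ‖x‖ = k ‖y‖
      rw [hxy])
  have hR20 : 0 < R2 := lt_of_lt_of_le hR1 hR2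
  have hsub : {x : E n | R2 ≤ ‖x‖} ⊆ (Bridge.toRaw D).Ω := fun x (hx : R2 ≤ ‖x‖) =>
    hout (hR2.trans hx)
  have hAm : D.Amin ≤ ENNReal.ofReal (omega n * ρ ^ (n - 1)) := by
    refine le_trans ?_ ((area_bridge D (Bridge.toRaw D) rfl rfl hR20 hsub).trans hA)
    refine sInf_le ⟨_, isExt_round hn2 hR20, ?_, rfl⟩
    intro x hx
    have hx' : R2 ≤ ‖x‖ := by
      have h : R2 ^ 2 ≤ ‖x‖ ^ 2 := by linarith only [hx]
      exact (abs_le_of_sq_le_sq' h (norm_nonneg x)).2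
    exact hsub hx'
  have hω : 0 < omega n := omega_pos'
  have hPsq : ‖(WithLp.toLp 2 P : E n)‖ ^ 2 = ∑ i, P i ^ 2 :=
    EuclideanSpace.real_norm_sq_eq _
  rw [hPsq] at hfin
  rw [hPsq] at hPz
  have hn1 : (0 : ℝ) < (n : ℝ) - 1 := by
    have : (3 : ℝ) ≤ n := by exact_mod_cast hn
    linarith only [this]
  have hn3 : (0 : ℝ) ≤ (n : ℝ) - 2 := by
    have : (3 : ℝ) ≤ n := by exact_mod_cast hn
    linarith only [this]
  have hρ2 : 0 < (ρ ^ (n - 2) / 2) ^ 2 := by positivity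
  have h1 : D.Amin.toReal ≤ omega n * ρ ^ (n - 1) := by
    have := ENNReal.toReal_mono ENNReal.ofReal_ne_top hAm
    rwa [ENNReal.toReal_ofReal (by (clear * - hω hρ; positivity))] at this
  have h2 : D.Amin.toReal / omega n ≤ ρ ^ (n - 1) := by
    rw [div_le_iff₀ hω]; linarith only [h1]
  have h3 : (D.Amin.toReal / omega n) ^ (((n : ℝ) - 2) / ((n : ℝ) - 1)) ≤ ρ ^ (n - 2) := by
    calc (D.Amin.toReal / omega n) ^ (((n : ℝ) - 2) / ((n : ℝ) - 1))
        ≤ (ρ ^ (n - 1)) ^ (((n : ℝ) - 2) / ((n : ℝ) - 1)) :=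
          Real.rpow_le_rpow (by (clear * - hω; positivity)) h2 (by (clear * - hn3 hn1; positivity))
      _ = ρ ^ (n - 2) := by
          rw [← Real.rpow_natCast ρ (n - 1), ← Real.rpow_mul hρ.le,
            ← Real.rpow_natCast ρ (n - 2)]
          congr 1
          have e1 : ((n - 1 : ℕ) : ℝ) = (n : ℝ) - 1 := by
            rw [Nat.cast_sub (by omega)]; norm_num
          have e2 : ((n - 2 : ℕ) : ℝ) = (n : ℝ) - 2 := by
            rw [Nat.cast_sub (by omega)]; norm_num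
          rw [e1, e2]
          (clear * - hn1; field_simp)
  have h4 : ρ ^ (n - 2) / 2 ≤ √(m ^ 2 - ∑ i, P i ^ 2) := Real.le_sqrt_of_sq_le hfin
  refine ⟨ne_top_of_le_ne_top ENNReal.ofReal_ne_top hAm, ?_, ?_, ?_⟩
  · rw [Real.sqrt_lt' hm0]
    linarith only [hρ2, hfin]
  · rw [omega_eq]
    linarith only [h4, h3]
  · rw [omega_eq]
    intro heq
    have h5 : ρ ^ (n - 2) / 2 = √(m ^ 2 - ∑ i, P i ^ 2) := by linarith only [h4, h3, heq]
    have h6 : (ρ ^ (n - 2) / 2) ^ 2 = m ^ 2 - ∑ i, P i ^ 2 := by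
      rw [h5]
      exact Real.sq_sqrt (hρ2.le.trans hfin)
    funext i
    exact hPz h6 i

end Vale.Agent.P366

namespace Vale.Agent.T4
open Vale.Agent.P366.Stmt Vale.Agent.P366.T2

variable {n : ℕ}

lemma radial_of_conf {g : Field n} {x : E n} {c : ℝ} (hx : 0 < len x)
    (hc : ∀ i j, g x i j = if i = j then c else 0) : radial g x = c := by
  have h1 : ∑ i, ∑ j, g x i j * x i * x j = c * ∑ i, x i ^ 2 := by
    rw [Finset.mul_sum]
    refine Finset.sum_congr rfl fun i _ => ?_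
    rw [Finset.sum_eq_single i]
    · rw [hc, if_pos rfl]; ring
    · intro j _ hj
      rw [hc, if_neg (Ne.symm hj)]; ring
    · simp
  have h2 : len x ^ 2 = ∑ i, x i ^ 2 := EuclideanSpace.real_norm_sq_eq x
  rw [radial, h1, ← h2]
  field_simp

lemma perp_of_conf {g : Field n} {x : E n} {c : ℝ} (hx : 0 < len x)
    (hc : ∀ i j, g x i j = if i = j then c else 0) (i : Fin n) :
    ∑ j, g x i j * x j = radial g x * x i := by
  rw [radial_of_conf hx hc, Finset.sum_eq_single i]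
  · rw [hc, if_pos rfl]
  · intro j _ hj
    rw [hc, if_neg (Ne.symm hj)]; ring
  · simp

lemma len_orth {A : Matrix (Fin n) (Fin n) ℝ} (hA : A.transpose * A = 1) {x y : E n}
    (hy : ∀ i, y i = ∑ j, A i j * x j) : len y = len x := by
  have h1 : (y : Fin n → ℝ) = A.mulVec x := by
    funext i
    rw [hy i]; rfl
  have h2 : ‖y‖ ^ 2 = ‖x‖ ^ 2 := by
    rw [EuclideanSpace.real_norm_sq_eq, EuclideanSpace.real_norm_sq_eq]
    have h3 : ∑ i, y i ^ 2 = A.mulVec x ⬝ᵥ A.mulVec x := by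
      rw [← h1]
      exact Finset.sum_congr rfl fun i _ => by rw [sq]
    rw [h3, Matrix.dotProduct_mulVec, Matrix.vecMul_mulVec, hA, Matrix.vecMul_one]
    exact Finset.sum_congr rfl fun i _ => by rw [sq]
  exact (sq_eq_sq₀ (norm_nonneg _) (norm_nonneg _)).mp h2

lemma inv_of_conf {g : Field n} {R : ℝ} (hR : 0 < R) {c : ℝ → ℝ}
    (hc : ∀ x, R ≤ len x → ∀ i j, g x i j = if i = j then c (len x) else 0) :
    InvUnder (fun A => A.transpose * A = 1 ∧ A.det = 1) R (spherical g) := by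
  rintro A ⟨hA, -⟩ x y hx hy i j
  have hlen : len y = len x := len_orth hA hy
  have hx0 : 0 < len x := hR.trans_le hx
  have hy0 : 0 < len y := hlen ▸ hx0
  have hyR : R ≤ len y := hlen ▸ hx
  have hAA : ∀ i j, ∑ k, A k i * A k j = if i = j then 1 else 0 := by
    intro i j
    have := congrFun (congrFun hA i) j
    rw [Matrix.mul_apply, Matrix.one_apply] at this
    simpa [Matrix.transpose_apply] using this
  have hAy : ∀ i, ∑ k, A k i * y k = x i := by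
    intro i
    have h1 : ∀ k, A k i * y k = ∑ j, A k i * A k j * x j := by
      intro k
      rw [hy k, Finset.mul_sum]
      exact Finset.sum_congr rfl fun j _ => by ring
    simp only [h1]
    rw [Finset.sum_comm]
    have h2 : ∀ j, ∑ k, A k i * A k j * x j = (if i = j then 1 else 0) * x j := by
      intro j
      rw [← Finset.sum_mul, hAA]
    simp only [h2]
    simp
  simp only [spherical, radial_of_conf hy0 (hc y hyR), radial_of_conf hx0 (hc x hx), hc y hyR,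
    hc x hx, hlen]
  have h3 : ∀ k, ∑ l, A k i * ((if k = l then c (len x) else 0)
      - c (len x) * y k * y l / len x ^ 2) * A l j =
      c (len x) * (A k i * A k j) - c (len x) / len x ^ 2 * (A k i * y k) * x j := by
    intro k
    have h4 : ∀ l, A k i * ((if k = l then c (len x) else 0)
        - c (len x) * y k * y l / len x ^ 2) * A l j =
        (if k = l then c (len x) * (A k i * A l j) else 0)
          - c (len x) / len x ^ 2 * (A k i * y k) * (A l j * y l) := by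
      intro l
      split_ifs <;> ring
    simp only [h4]
    rw [Finset.sum_sub_distrib, ← Finset.mul_sum, hAy]
    simp
  simp only [h3]
  rw [Finset.sum_sub_distrib, ← Finset.mul_sum, hAA, ← Finset.sum_mul, ← Finset.mul_sum, hAy]
  split_ifs <;> ring

/-- **Radial trace, with the equality case.** -/
theorem radialTraceEq (hn : 3 ≤ n) {D : Exterior n} (hAF : D.IsAF) (hDEC : D.DEC)
    (hT : D.Trapped) {m : ℝ} {P : Fin n → ℝ} (hm : D.IsEnergy m) (hP : D.IsMomentum P)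
    {R₁ : ℝ} (hR₁ : IsGreatest {r | ∃ x, D.F x = 0 ∧ len x = r} R₁) {c k : ℝ → ℝ}
    (hc : ∀ x, R₁ ≤ len x → ∀ i j, D.g x i j = if i = j then c (len x) else 0)
    (hk : ∀ x, R₁ ≤ len x → trS D.g D.K len x = k (len x)) :
    D.Amin ≠ ⊤ ∧ √(∑ i, P i ^ 2) < m ∧
    (D.Amin.toReal / omega n) ^ (((n : ℝ) - 2) / (n - 1)) / 2 ≤ √(m ^ 2 - ∑ i, P i ^ 2) ∧
    ((D.Amin.toReal / omega n) ^ (((n : ℝ) - 2) / (n - 1)) / 2 = √(m ^ 2 - ∑ i, P i ^ 2) →
      P = 0 ∧ (Outermost D → IsSlice m D.g D.K {x | R₁ < len x})) := by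
  obtain ⟨h1, h2, h3, h4⟩ := Vale.Agent.P366.penrose_stmt2_s hn D hAF hDEC hT hm hP hR₁ hc hk
  refine ⟨h1, h2, h3, fun heq => ?_⟩
  have hP0 := h4 heq
  refine ⟨hP0, fun hO => ?_⟩
  have hm0 : 0 < m := lt_of_le_of_lt (Real.sqrt_nonneg _) h2
  have hR0 : 0 < R₁ :=
    (Vale.Agent.P366.Bridge.toRaw D).R1_pos (by omega) (Vale.Agent.P366.Bridge.raw_R1 D hR₁)
  have h5 := lapseT hn hAF hDEC hT hm hR₁ TransGroup.so
    (fun x hx i => perp_of_conf (hR0.trans_le hx) (hc x hx) i) (inv_of_conf hR0 hc)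
    (κ := fun r => √(c r) * k r)
    (fun x hx => by rw [radial_of_conf (hR0.trans_le hx) (hc x hx), hk x hx])
  refine h5.2.2.2 hO ?_
  rw [heq, hP0]
  simp [Real.sqrt_sq hm0.le]

end Vale.Agent.T4
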