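import Vale.Agent.P366.T6.RadStrict355

/-!
# The reduced theorem with its equality case: equality forces zero momentum
-/

open Set Function Filter Topology

namespace Vale.Agent.P366

theorem SphAvg.sq_avg_le {n : ℕ} {S : Type*} [TopologicalSpace S] (D : SphAvg n S)
    (g : C(S, ℝ)) : (D.avg g) ^ 2 ≤ D.avg (g ^ 2) := by
  have h0 : 0 ≤ D.avg ((g - ContinuousMap.const S (D.avg g)) ^ 2) := by
    apply D.avg_nonneg
    intro s
    simp only [ContinuousMap.coe_pow, Pi.pow_apply]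
    exact sq_nonneg _
  have e : (g - ContinuousMap.const S (D.avg g)) ^ 2 =
      g ^ 2 - (2 * D.avg g) • g + ContinuousMap.const S ((D.avg g) ^ 2) := by
    ext s
    simp only [ContinuousMap.coe_pow, Pi.pow_apply, ContinuousMap.sub_apply,
      ContinuousMap.const_apply, ContinuousMap.add_apply, ContinuousMap.smul_apply, smul_eq_mul]
    ring
  rw [e, map_add, map_sub, map_smul, D.avg_const, smul_eq_mul] at h0
  linarith only [h0]

namespace ReducedData2

variable {n : ℕ} {S : Type*} [TopologicalSpace S] {D : SphAvg n S} (d : ReducedData2 n S D)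

/-- strict monotonicity of `F` where the momentum does not vanish -/
theorem F_deriv_pos (hn : 3 ≤ n) {R : ℝ} (hR : d.a < R) (hh : 0 < d.h R)
    (hc : (d.c R) ^ 2 < (d.h R) ^ 2) (hM : 0 < d.M R) (hF : 0 ≤ d.F R) (hp : 0 < d.p2 R) :
    ∃ F', HasDerivAt d.F F' R ∧ 0 < F' := by
  refine ⟨_, d.F_deriv hn hR hh.ne', ?_⟩
  have hf := d.f_pos R hR.le
  have hR0 := d.pos_of_lt hR
  have hT := d.T_pos hR.le
  have hMT := d.two_MT hR.le
  have hn' : (3 : ℝ) ≤ n := by exact_mod_cast hn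
  have hn1 : (0 : ℝ) < (n : ℝ) - 1 := by linarith only [hn']
  have hl : d.l R = d.h R - 1 / R := by simp [h]
  have key := key_main2_s D hn (fun i => d.P i R) (fun i => d.x i R) R (d.f R) (d.h R) (d.c R)
    (d.l R) (d.T R) (d.M R) (d.M R + d.p2 R / d.T R) (d.p2 R) (d.Ns R) rfl hp hR0 hf hh hM hT hc
    rfl hl rfl hMT hF (d.mu R) (d.JN R) (d.Q R) (d.J R) (d.X R) rfl (d.X_tan R hR)
    (fun i => d.x_eq i R hR) (fun i => rfl) (d.Q_nonneg R hR) (d.mu_nonneg R hR) (d.dec R hR)
    (d.B R) rfl (fun i => d.avg_N_B hn hR i) (d.avg_qq_B hn hR _ _ rfl)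
  have hx2 : 0 < ∑ i, d.x i R ^ 2 := by
    have h1 : d.p2 R = (d.T R * R / d.f R / ((n : ℝ) - 1)) ^ 2 * ∑ i, d.x i R ^ 2 := by
      rw [p2, Finset.mul_sum]
      refine Finset.sum_congr rfl fun i _ => ?_
      rw [P]; ring
    rw [h1] at hp
    exact (mul_pos_iff_of_pos_left (by positivity)).mp hp
  have hX : 0 < D.avg (∑ i, d.X R i ^ 2) := by
    rw [map_sum]
    refine lt_of_lt_of_le hx2 (Finset.sum_le_sum fun i _ => ?_)
    rw [d.x_eq i R hR]
    exact D.sq_avg_le _
  have hs : 0 < (d.T R * R ^ 2 / (((n : ℝ) - 1) * d.f R ^ 2)) * d.h R *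
      (d.p2 R / d.T R / 10 * D.avg (∑ i, d.X R i ^ 2)) := by positivity
  linarith only [key, hs]

/-- **Reduced theorem with equality case.** -/
theorem main_s (hn : 3 ≤ n) (E : ℝ) (Pinf : Fin n → ℝ) (hE : Tendsto d.M atTop (𝓝 E))
    (hP : ∀ i, Tendsto (d.P i) atTop (𝓝 (Pinf i))) :
    ∃ R2, d.a ≤ R2 ∧ d.Ns R2 = 0 ∧ 0 < E ∧
      (d.rho R2 ^ (n - 2) / 2) ^ 2 ≤ E ^ 2 - ∑ i, Pinf i ^ 2 ∧
      ((d.rho R2 ^ (n - 2) / 2) ^ 2 = E ^ 2 - ∑ i, Pinf i ^ 2 → ∀ i, Pinf i = 0) := by
  obtain ⟨R2, hR2, hN2, hbeyond⟩ := d.exists_R2 hn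
  have hM2 : d.M R2 = d.rho R2 ^ (n - 2) / 2 := by
    have h1 := d.two_MT hR2
    rw [hN2, sub_zero] at h1
    have hT := d.T_pos hR2
    have : d.M R2 = d.T R2 / 2 := by
      field_simp at h1 ⊢
      linarith only [h1]
    rw [this, T]
  have hM2pos : 0 < d.M R2 := by
    rw [hM2]; have := d.rho_pos hR2; positivity
  have hcs : ∀ R, R2 < R → (d.c R) ^ 2 < (d.h R) ^ 2 := by
    intro R hR
    have h1 := (hbeyond R hR).1
    have hR0 : 0 < R := lt_trans (lt_of_lt_of_le d.a_pos hR2) hR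
    simp only [Ns] at h1
    have h2 : 0 < (d.h R) ^ 2 - (d.c R) ^ 2 := by
      by_contra hle
      push Not at hle
      linarith only [mul_nonneg (sub_nonneg.2 hle) (sq_nonneg R), h1]
    linarith only [h2]
  have hMmono : MonotoneOn d.M (Ici R2) := by
    apply monotoneOn_of_deriv_nonneg (convex_Ici _)
    · exact (d.M_cont hn).mono (Ici_subset_Ici.mpr hR2)
    · intro x hx
      rw [interior_Ici] at hx
      exact (d.M_deriv hn (lt_of_le_of_lt hR2 hx)).differentiableAt.differentiableWithinAt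
    · intro x hx
      rw [interior_Ici] at hx
      obtain ⟨M', h1, h2⟩ := d.M_deriv_nonneg hn (lt_of_le_of_lt hR2 hx)
        (hbeyond x hx).2 (hcs x hx)
      rw [h1.deriv]; exact h2
  have hMge : ∀ R, R2 ≤ R → d.M R2 ≤ d.M R := fun R hR => hMmono (mem_Ici.mpr le_rfl) hR hR
  have hF2 : d.F R2 = (d.M R2) ^ 2 := by simp [F, hN2]
  have hFge : ∀ R, R2 ≤ R → d.F R2 ≤ d.F R := by
    apply bootstrap_mono
    · exact (d.F_cont hn).mono (Ici_subset_Ici.mpr hR2)
    · rw [hF2]; (clear * - hM2pos; positivity)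
    · intro R hR hF
      exact d.F_deriv_nonneg hn (lt_of_le_of_lt hR2 hR) (hbeyond R hR).2 (hcs R hR)
        (lt_of_lt_of_le hM2pos (hMge R hR.le)) hF
  have hF0 : 0 < d.F R2 := by rw [hF2]; positivity
  have hFmono : MonotoneOn d.F (Ici R2) := by
    apply monotoneOn_of_deriv_nonneg (convex_Ici _)
    · exact (d.F_cont hn).mono (Ici_subset_Ici.mpr hR2)
    · intro x hx
      rw [interior_Ici] at hx
      obtain ⟨F', h1, -⟩ := d.F_deriv_nonneg hn (lt_of_le_of_lt hR2 hx) (hbeyond x hx).2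
        (hcs x hx) (lt_of_lt_of_le hM2pos (hMge x (le_of_lt hx)))
        (hF0.le.trans (hFge x (le_of_lt hx)))
      exact h1.differentiableAt.differentiableWithinAt
    · intro x hx
      rw [interior_Ici] at hx
      obtain ⟨F', h1, h2⟩ := d.F_deriv_nonneg hn (lt_of_le_of_lt hR2 hx) (hbeyond x hx).2
        (hcs x hx) (lt_of_lt_of_le hM2pos (hMge x (le_of_lt hx)))
        (hF0.le.trans (hFge x (le_of_lt hx)))
      rw [h1.deriv]; exact h2
  have hEge : d.M R2 ≤ E := by
    refine ge_of_tendsto hE ?_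
    filter_upwards [eventually_ge_atTop R2] with R hR
    exact hMge R hR
  have hp2lim : Tendsto d.p2 atTop (𝓝 (∑ i, Pinf i ^ 2)) :=
    tendsto_finsetSum _ fun i _ => (hP i).pow 2
  have hFlim : Tendsto d.F atTop (𝓝 (E ^ 2 - ∑ i, Pinf i ^ 2)) := by
    have h1 := (hE.pow 2).sub ((d.lim_Ns hn).mul hp2lim)
    rw [one_mul] at h1
    exact h1
  refine ⟨R2, hR2, hN2, lt_of_lt_of_le hM2pos hEge, ?_, ?_⟩
  · rw [← hM2, ← hF2]
    refine ge_of_tendsto hFlim ?_
    filter_upwards [eventually_ge_atTop R2] with R hR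
    exact hFge R hR
  · intro heq
    rw [← hM2, ← hF2] at heq
    have hconst : ∀ R, R2 ≤ R → d.F R = d.F R2 := by
      intro R hR
      refine le_antisymm ?_ (hFge R hR)
      rw [heq]
      refine ge_of_tendsto hFlim ?_
      filter_upwards [eventually_ge_atTop R] with R' hR'
      exact hFmono hR (mem_Ici.mpr (hR.trans hR')) hR'
    have hp0 : ∀ R, R2 < R → d.p2 R = 0 := by
      intro R hR
      by_contra hne
      have hpos : 0 < d.p2 R :=
        lt_of_le_of_ne (Finset.sum_nonneg fun i _ => sq_nonneg _) (Ne.symm hne)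
      obtain ⟨F', h1, h2⟩ := d.F_deriv_pos hn (lt_of_le_of_lt hR2 hR) (hbeyond R hR).2
        (hcs R hR) (lt_of_lt_of_le hM2pos (hMge R hR.le)) (hF0.le.trans (hFge R hR.le)) hpos
      have h3 : HasDerivAt d.F 0 R := by
        refine (hasDerivAt_const R (d.F R2)).congr_of_eventuallyEq ?_
        filter_upwards [lt_mem_nhds hR] with R' hR'
        exact hconst R' (le_of_lt hR')
      have h4 := h1.unique h3
      linarith only [h2, h4]
    have hsum : ∑ i, Pinf i ^ 2 = 0 := by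
      refine tendsto_nhds_unique hp2lim ?_
      refine tendsto_const_nhds.congr' ?_
      filter_upwards [eventually_gt_atTop R2] with R hR
      exact (hp0 R hR).symm
    intro i
    have := (Finset.sum_eq_zero_iff_of_nonneg (fun i _ => sq_nonneg (Pinf i))).mp hsum i
      (Finset.mem_univ i)
    exact pow_eq_zero_iff (two_ne_zero) |>.mp this

end ReducedData2

end Vale.Agent.P366
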