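import Vale.Agent.P366.Bdl.B1

/-!
# Strict monotonicity of `F` where the momentum does not vanish
-/

open Set Function Filter Topology

namespace Vale.Agent.P366

theorem omega_low_s (nn a M T m v t : ℝ) (hn : 3 ≤ nn) (ha : 0 < a) (hM : 0 < M) (hT : 0 < T)
    (hm : m = min M a) (hF : (1 - 2 * (M / T)) * a ^ 2 ≤ M ^ 2) (hv : v ^ 2 ≤ 1)
    (ht0 : 0 ≤ t) (ht1 : t ≤ 1) :
    M + t * m * v + a ^ 2 / T / 10 ≤ M + a ^ 2 / T + t * a * v
      - m * a / T * (1 / nn - v ^ 2 + (1 - 1 / nn) * v) := by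
  have hv1' : -1 ≤ v := by nlinarith only [hv]
  have hnn : 0 < nn := by linarith only [hn]
  have hinv0 : 0 < 1 / nn := by positivity
  have hinv : 1 / nn ≤ 1 / 3 := by
    apply one_div_le_one_div_of_le (by norm_num) hn
  set i := 1 / nn with hi
  set e : ℝ := i - v ^ 2 + (1 - i) * v with he
  have he1' : e ≤ 4 / 9 := by
    have h1 : 0 ≤ (v - (1 - i) / 2) ^ 2 := sq_nonneg _
    have h2 : e = (1 + i) ^ 2 / 4 - (v - (1 - i) / 2) ^ 2 := by rw [he]; ring
    have h3 : (1 + i) ^ 2 ≤ (4 / 3) ^ 2 :=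
      pow_le_pow_left₀ (by linarith only [hinv0]) (by linarith only [hinv]) 2
    rw [h2]; linarith only [h1, h3]
  have haT : 0 < a / T := by positivity
  have hp : 0 < a ^ 2 / T := by positivity
  have hap : a / T * a = a ^ 2 / T := by ring
  rcases le_total a M with h | h
  · have hma : m = a := by rw [hm]; exact min_eq_right h
    rw [hma]
    have h1 : M + a ^ 2 / T + t * a * v - a * a / T * e - (M + t * a * v) =
        a ^ 2 / T * (1 - e) := by ring
    have h2 : a ^ 2 / T * (5 / 9) ≤ a ^ 2 / T * (1 - e) :=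
      mul_le_mul_of_nonneg_left (by linarith only [he1']) hp.le
    linarith only [h2, h1, hp]
  · have hmM : m = M := by rw [hm]; exact min_eq_left h
    rw [hmM]
    have h1 : M + a ^ 2 / T + t * a * v - M * a / T * e - (M + t * M * v) =
        a / T * (a - M * e) + t * (a - M) * v := by ring
    have hMe : M * e ≤ a * (4 / 9) := by
      calc M * e ≤ M * (4 / 9) := mul_le_mul_of_nonneg_left he1' hM.le
        _ ≤ a * (4 / 9) := by linarith only [h]
    have h4 : a ^ 2 / T * (5 / 9) ≤ a / T * (a - M * e) := by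
      have h5 : a / T * (a * (5 / 9)) ≤ a / T * (a - M * e) :=
        mul_le_mul_of_nonneg_left (by linarith only [hMe]) haT.le
      have h6 : a / T * (a * (5 / 9)) = a ^ 2 / T * (5 / 9) := by ring
      linarith only [h5, h6]
    have h2 : a ^ 2 / T / 10 ≤ a / T * (a - M * e) + t * (a - M) * v := by
      rcases le_or_gt 0 v with hv0 | hv0
      · have h5 : 0 ≤ t * (a - M) * v := mul_nonneg (mul_nonneg ht0 (by linarith only [h])) hv0
        linarith only [h5, h4, hp]
      · set w := -v with hw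
        have hw0 : 0 < w := by linarith only [hv0]
        have hw1 : w ≤ 1 := by linarith only [hv1']
        have hvw : v = -w := by ring
        have hee : e = i - w ^ 2 - (1 - i) * w := by rw [he, hvw]; ring
        have h6 : (a - M) * (a + M) ≤ 2 * M * a * (a / T) := by
          have : (1 - 2 * (M / T)) * a ^ 2 = a ^ 2 - 2 * M * a * (a / T) := by
            (clear * - hT ha; field_simp)
          rw [this] at hF
          have e : (a - M) * (a + M) = a ^ 2 - M ^ 2 := by ring
          rw [e]; linarith only [hF]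
        have h7 : 0 ≤ a - M * e := by linarith only [hMe, ha]
        have h8 : (a - M) * (a + M) * (a - M * e) ≤ 2 * M * a * (a / T) * (a - M * e) :=
          mul_le_mul_of_nonneg_right h6 h7
        have h9 : 2 * M * a * (w + 4 / 9) ≤ (a + M) * (a - M * e) := by
          rw [hee]
          have h10 : 0 ≤ w ^ 2 + (1 - i) * w :=
            add_nonneg (sq_nonneg w) (mul_nonneg (by linarith only [hinv]) hw0.le)
          have h11 : (a + M) * (a - M * (i - w ^ 2 - (1 - i) * w)) =
              (a + M) * (a - M * i) + (a + M) * M * (w ^ 2 + (1 - i) * w) := by ring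
          rw [h11]
          have h12 : 2 * M * (a * (1 - i)) ≤ (a + M) * (a - M * i) := by
            have e1 : a * (1 - i) ≤ a - M * i := by
              have h30 : M * i ≤ a * i := mul_le_mul_of_nonneg_right h hinv0.le
              have e : a * (1 - i) = a - a * i := by ring
              rw [e]; linarith only [h30]
            have e2 : 0 ≤ a * (1 - i) := mul_nonneg ha.le (by linarith only [hinv])
            calc 2 * M * (a * (1 - i)) ≤ (a + M) * (a * (1 - i)) :=
                  mul_le_mul_of_nonneg_right (by linarith only [h]) e2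
              _ ≤ _ := mul_le_mul_of_nonneg_left e1 (by linarith only [h, hM])
          have h13 : a * M * (w ^ 2 + (1 - i) * w) ≤ (a + M) * M * (w ^ 2 + (1 - i) * w) := by
            apply mul_le_mul_of_nonneg_right _ h10
            exact mul_le_mul_of_nonneg_right (by linarith only [hM]) hM.le
          have h14 : 0 ≤ M * a * (2 * (1 - i) + w ^ 2 + (1 - i) * w - 2 * w - 8 / 9) := by
            apply mul_nonneg (mul_nonneg hM.le ha.le)
            have h20 : 2 / 3 ≤ 1 - i := by linarith only [hinv]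
            have h21 : 2 / 3 * w ≤ (1 - i) * w := mul_le_mul_of_nonneg_right h20 hw0.le
            have h22 : 0 ≤ (w - 2 / 3) ^ 2 := sq_nonneg _
            have h23 : (w - 2 / 3) ^ 2 = w ^ 2 - 4 / 3 * w + 4 / 9 := by ring
            linarith only [h21, h20, h22, h23]
          have h24 : M * a * (2 * (1 - i) + w ^ 2 + (1 - i) * w - 2 * w - 8 / 9) =
              2 * M * (a * (1 - i)) + a * M * (w ^ 2 + (1 - i) * w) - 2 * M * a * (w + 4 / 9) := by
            ring
          linarith only [h13, h12, h14, h24]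
        have h15 : (a - M) * (2 * M * a * (w + 4 / 9)) ≤ (a - M) * ((a + M) * (a - M * e)) :=
          mul_le_mul_of_nonneg_left h9 (by linarith only [h])
        have h16 : (a - M) * (w + 4 / 9) ≤ a / T * (a - M * e) := by
          have h17 : 2 * M * a * ((a - M) * (w + 4 / 9)) ≤
              2 * M * a * (a / T * (a - M * e)) := by
            calc 2 * M * a * ((a - M) * (w + 4 / 9)) = (a - M) * (2 * M * a * (w + 4 / 9)) := by
                  ring
              _ ≤ (a - M) * ((a + M) * (a - M * e)) := h15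
              _ = (a - M) * (a + M) * (a - M * e) := by ring
              _ ≤ 2 * M * a * (a / T) * (a - M * e) := h8
              _ = _ := by ring
          exact le_of_mul_le_mul_left h17 (by positivity)
        have h18 : t * (a - M) * v = -(t * ((a - M) * w)) := by rw [hvw]; ring
        have h19 : t * ((a - M) * w) ≤ 1 * ((a - M) * w) :=
          mul_le_mul_of_nonneg_right ht1 (mul_nonneg (by linarith only [h]) hw0.le)
        have h25 : (a - M) * w ≤ 9 / 13 * ((a - M) * (w + 4 / 9)) := by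
          have h26 : 0 ≤ (a - M) * (1 - w) :=
            mul_nonneg (by linarith only [h]) (by linarith only [hw1])
          have h27 : 9 / 13 * ((a - M) * (w + 4 / 9)) - (a - M) * w =
              4 / 13 * ((a - M) * (1 - w)) := by ring
          linarith only [h26, h27]
        rw [h18]; linarith only [h19, h16, h25, h4, hp]
    linarith only [h2, h1]

variable {n : ℕ} {S : Type*} [TopologicalSpace S] (D : SphAvg n S)

/-- `X_term2` with a slack in the weight. -/
theorem X_term2_s (hn : 3 ≤ n) (P x : Fin n → ℝ) (R f h c M T p a m t δ : ℝ)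
    (hpdef : p = ∑ i, P i ^ 2) (hR : 0 < R) (hf : 0 < f) (hh : 0 < h) (hM : 0 < M) (hT : 0 < T)
    (ha : 0 < a) (hap : a ^ 2 = p)
    (htdef : t = c * m / (h * M)) (ht : t ^ 2 < 1)
    (W : C(S, ℝ)) (hW : ∀ s, M * (1 + t / a * D.q P s) + δ ≤ W s)
    (X : Fin n → C(S, ℝ)) (hXt : ∀ s, ∑ i, D.N i s * X i s = 0)
    (hx : ∀ i, x i = D.avg (X i)) (hP : ∀ i, P i = T * R / f * x i / ((n : ℝ) - 1)) :
    (M * h / T) * (n * p - (1 - 1 / (n : ℝ)) * t ^ 2 * p)
      + 2 * c * m * R / (((n : ℝ) - 1) * f * a) * D.avg (D.q P * ∑ i, P i • X i)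
      + (T * R ^ 2 / (((n : ℝ) - 1) * f ^ 2)) * h * (δ * D.avg (∑ i, X i ^ 2)) ≤
    (T * R ^ 2 / (((n : ℝ) - 1) * f ^ 2)) * h * D.avg (W * ∑ i, X i ^ 2) := by
  have h1 := X_term2 D hn P x R f h c M T p a m t hpdef hR hf hh hM hT ha hap htdef ht
    (W - ContinuousMap.const S δ) (fun s => by
      have := hW s
      simp only [ContinuousMap.sub_apply, ContinuousMap.const_apply]
      linarith only [this]) X hXt hx hP
  have h2 : D.avg ((W - ContinuousMap.const S δ) * ∑ i, X i ^ 2) =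
      D.avg (W * ∑ i, X i ^ 2) - δ * D.avg (∑ i, X i ^ 2) := by
    have e : (W - ContinuousMap.const S δ) * ∑ i, X i ^ 2 =
        W * ∑ i, X i ^ 2 - δ • ∑ i, X i ^ 2 := by
      ext s
      simp only [ContinuousMap.mul_apply, ContinuousMap.sub_apply, ContinuousMap.const_apply,
        ContinuousMap.smul_apply, smul_eq_mul]
      ring
    rw [e, map_sub, map_smul, smul_eq_mul]
  rw [h2] at h1
  linarith only [h1]

theorem key_abs_s (hn : 3 ≤ n) (P x : Fin n → ℝ) (R f h c l T M A p Ns k0 ga sl : ℝ)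
    (hpdef : p = ∑ i, P i ^ 2)
    (hR : 0 < R) (hf : 0 < f) (hh : 0 < h) (hM : 0 < M) (hT : 0 < T)
    (hc : c ^ 2 < h ^ 2) (hAdef : A = M + p / T) (hl : l = h - 1 / R)
    (hNs : Ns = R ^ 2 * (h ^ 2 - c ^ 2)) (hMT : 2 * (M / T) = 1 - Ns)
    (hF : 0 ≤ M ^ 2 - Ns * p)
    (mu JN Q : C(S, ℝ)) (J X : Fin n → C(S, ℝ))
    (hJN : JN = ∑ i, D.N i * J i)
    (hP : ∀ i, P i = T * R / f * x i / ((n : ℝ) - 1))
    (hQ : ∀ s, 0 ≤ Q s) (hmu : ∀ s, 0 ≤ mu s)
    (hdec : ∀ s, ∑ i, J i s ^ 2 ≤ (f * mu s) ^ 2)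
    (B : C(S, ℝ)) (hBdef : B = h • mu - (c / f) • JN + (h / f ^ 4) • (∑ i, X i ^ 2 + (1 / 2 : ℝ) • Q))
    (hB : ∀ i, D.avg (D.N i * B) = c / f ^ 3 * (x i / R))
    (hB2 : D.avg (D.q P ^ 2 * B) = p / n * D.avg B
      + 2 * c / (f ^ 3 * R) * D.avg (D.q P * ∑ i, P i • X i))
    (W : C(S, ℝ)) (hWs : W = ContinuousMap.const S (A - k0 * p / n) + (c / h - ga) • D.q P
      + k0 • D.q P ^ 2)
    (hW0 : ∀ s, 0 ≤ W s)
    (hW1 : ∀ s, (D.q P s) ^ 2 + Ns * (p - (D.q P s) ^ 2) ≤ (W s - c / h * D.q P s) ^ 2)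
    (hXf : n * (M / T) * h * p + sl ≤ (T * R ^ 2 / (((n : ℝ) - 1) * f ^ 2)) * h *
      D.avg (W * ∑ i, X i ^ 2) + ga * c * p
      - k0 * (2 * c * T * R / (((n : ℝ) - 1) * f)) * D.avg (D.q P * ∑ i, P i • X i)) :
    sl ≤ A * ((T * R ^ 2 * f ^ 2 / ((n : ℝ) - 1)) * D.avg B) - ((n : ℝ) - 2) * (M / T) * h * p
      - Ns * ∑ i, P i * (-(l / h) * (h + 1 / R) * P i
        + (T * R * f / ((n : ℝ) - 1)) * (D.avg (J i) - (l / h) * D.avg (JN * D.N i))) := by
  have hn' : (3 : ℝ) ≤ n := by exact_mod_cast hn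
  have hn1 : (0 : ℝ) < (n : ℝ) - 1 := by linarith only [hn']
  have hnpos : (0 : ℝ) < n := by linarith only [hn1]
  obtain ⟨hp0, hA, hNs1, hNs0, hpA, hcoef, hPx⟩ := key_setup hn P x R f h c l T M A p Ns hpdef
    hR hf hh hM hT hc hAdef hl hNs hMT hF hP
  rw [key_sum D P R f h l T p hpdef JN J]
  set b1 := D.avg (∑ i, P i • J i) with hb1
  set b2 := D.avg (D.q P * JN) with hb2
  -- matter
  have hG : 0 ≤ D.avg (h • (W * mu) - (c / f) • (W * JN)
      - (Ns / (R * f)) • ((∑ i, P i • J i) - (l / h) • (D.q P * JN))) := by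
    apply D.avg_nonneg
    intro s
    have := matter_pointwise2 D P (fun i => J i s) s R f h c l p Ns (mu s) (W s) (JN s)
      hpdef hR hf hh hc hl hNs (hW0 s) (hW1 s)
      (by rw [hJN]; simp only [ContinuousMap.coe_sum, ContinuousMap.coe_mul, Finset.sum_apply, Pi.mul_apply]) (hmu s) (hdec s)
    simp only [ContinuousMap.coe_sub, Pi.sub_apply, ContinuousMap.coe_smul, Pi.smul_apply,
      ContinuousMap.coe_sum, Finset.sum_apply, smul_eq_mul, ContinuousMap.coe_mul, Pi.mul_apply]
    refine le_trans this (le_of_eq ?_)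
    ring
  have hWQ : 0 ≤ D.avg (W * Q) := by
    apply D.avg_nonneg
    intro s
    simpa only [ContinuousMap.mul_apply] using mul_nonneg (hW0 s) (hQ s)
  have e1 : D.avg (W * B) = (A - k0 * p / n) * D.avg B + (c / h - ga) * D.avg (D.q P * B)
      + k0 * D.avg (D.q P ^ 2 * B) := by
    have : W * B = (A - k0 * p / n) • B + (c / h - ga) • (D.q P * B)
        + k0 • (D.q P ^ 2 * B) := by
      rw [hWs]; ext s; simp only [ContinuousMap.mul_apply, ContinuousMap.add_apply, ContinuousMap.const_apply, ContinuousMap.coe_smul, Pi.smul_apply, smul_eq_mul, ContinuousMap.coe_pow, Pi.pow_apply, ContinuousMap.coe_mul, Pi.mul_apply]; ring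
    rw [this, map_add, map_add, map_smul, map_smul, map_smul]; simp only [smul_eq_mul]
  have e2 : D.avg (W * B) = h * D.avg (W * mu) - (c / f) * D.avg (W * JN)
      + (h / f ^ 4) * (D.avg (W * ∑ i, X i ^ 2) + (1 / 2) * D.avg (W * Q)) := by
    have : W * B = h • (W * mu) - (c / f) • (W * JN)
        + (h / f ^ 4) • ((W * ∑ i, X i ^ 2) + (1 / 2 : ℝ) • (W * Q)) := by
      rw [hBdef]; ext s; simp only [one_div, smul_add, ContinuousMap.mul_apply, ContinuousMap.add_apply, ContinuousMap.sub_apply, ContinuousMap.coe_smul, Pi.smul_apply, smul_eq_mul, ContinuousMap.coe_sum, ContinuousMap.coe_pow, Finset.sum_apply, Pi.pow_apply, ContinuousMap.coe_mul, Pi.mul_apply]; ring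
    rw [this]; simp only [map_add, map_sub, map_smul, smul_eq_mul]
  have e3 : D.avg (D.q P * B) = c * ((n : ℝ) - 1) * p / (f ^ 2 * T * R ^ 2) := by
    have : D.q P * B = ∑ i, P i • (D.N i * B) := by
      ext s
      simp only [ContinuousMap.coe_mul, Pi.mul_apply, D.q_apply, ContinuousMap.coe_sum,
        Finset.sum_apply, ContinuousMap.coe_smul, Pi.smul_apply, smul_eq_mul]
      rw [Finset.sum_mul]
      refine Finset.sum_congr rfl fun i _ => by ring
    rw [this, map_sum]
    simp only [map_smul, smul_eq_mul, hB]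
    have : ∑ i, P i * (c / f ^ 3 * (x i / R)) = c / (f ^ 3 * R) * ∑ i, P i * x i := by
      rw [Finset.mul_sum]
      refine Finset.sum_congr rfl fun i _ => by (clear * - hR hf; field_simp)
    rw [this, hPx]; (clear * - hT hn1 hR hf; field_simp)
  have e4 : D.avg (h • (W * mu) - (c / f) • (W * JN)
      - (Ns / (R * f)) • ((∑ i, P i • J i) - (l / h) • (D.q P * JN))) =
      h * D.avg (W * mu) - (c / f) * D.avg (W * JN)
        - (Ns / (R * f)) * (b1 - (l / h) * b2) := by
    simp only [map_sub, map_smul, smul_eq_mul, hb1, hb2]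
  rw [e4] at hG
  rw [e3, hB2] at e1
  set a0 := D.avg B
  set a1 := D.avg (W * mu)
  set a2 := D.avg (W * JN)
  set a3 := D.avg (W * ∑ i, X i ^ 2)
  set a4 := D.avg (W * Q)
  set a5 := D.avg (D.q P * ∑ i, P i • X i)
  -- A * a0
  have e5 : A * a0 = h * a1 - (c / f) * a2 + (h / f ^ 4) * (a3 + (1 / 2) * a4)
      - (c / h - ga) * (c * ((n : ℝ) - 1) * p / (f ^ 2 * T * R ^ 2))
      - k0 * (2 * c / (f ^ 3 * R) * a5) := by
    rw [← e2, e1]; ring
  have e6 : A * ((T * R ^ 2 * f ^ 2 / ((n : ℝ) - 1)) * a0) =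
      (T * R ^ 2 * f ^ 2 / ((n : ℝ) - 1)) * (h * a1 - (c / f) * a2)
      + (T * R ^ 2 / (((n : ℝ) - 1) * f ^ 2)) * h * a3
      + (T * R ^ 2 / (((n : ℝ) - 1) * f ^ 2)) * h * ((1 / 2) * a4) - (c / h - ga) * (c * p)
      - k0 * (2 * c * T * R / (((n : ℝ) - 1) * f)) * a5 := by
    have : A * ((T * R ^ 2 * f ^ 2 / ((n : ℝ) - 1)) * a0) =
      (T * R ^ 2 * f ^ 2 / ((n : ℝ) - 1)) * (A * a0) := by ring
    rw [this, e5]; field_simp; ring
  have e7 : Ns * (-((l / h) * (h + 1 / R)) * p + (T * R * f / ((n : ℝ) - 1)) * (b1 - (l / h) * b2))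
      = -(c ^ 2 / h - 2 * (M / T) * h) * p
        + (T * R ^ 2 * f ^ 2 / ((n : ℝ) - 1)) * ((Ns / (R * f)) * (b1 - (l / h) * b2)) := by
    rw [← hcoef]; (clear * - hR hn1 hh; field_simp)
  rw [e6, e7]
  have h8 : 0 ≤ (T * R ^ 2 * f ^ 2 / ((n : ℝ) - 1)) *
      (h * a1 - (c / f) * a2 - (Ns / (R * f)) * (b1 - (l / h) * b2)) :=
    mul_nonneg (by (clear * - hT hR hf hn1; positivity)) hG
  have h9 : 0 ≤ (T * R ^ 2 / (((n : ℝ) - 1) * f ^ 2)) * h * ((1 / 2) * a4) :=
    mul_nonneg (by (clear * - hT hR hn1 hf hh; positivity)) (by linarith only [hWQ])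
  have h10 : (T * R ^ 2 * f ^ 2 / ((n : ℝ) - 1)) *
      (h * a1 - (c / f) * a2 - (Ns / (R * f)) * (b1 - (l / h) * b2)) =
      (T * R ^ 2 * f ^ 2 / ((n : ℝ) - 1)) * (h * a1 - (c / f) * a2)
      - (T * R ^ 2 * f ^ 2 / ((n : ℝ) - 1)) * ((Ns / (R * f)) * (b1 - (l / h) * b2)) := by ring
  have h11 : ((n : ℝ) - 2) * (M / T) * h * p + -(c ^ 2 / h - 2 * (M / T) * h) * p =
      n * (M / T) * h * p - (c ^ 2 / h) * p := by ring
  have h12 : (c / h - ga) * (c * p) = (c ^ 2 / h) * p - ga * c * p := by ring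
  rw [h12]
  linarith only [h8, hXf, h9]

theorem key_main2_s (hn : 3 ≤ n) (P x : Fin n → ℝ) (R f h c l T M A p Ns : ℝ)
    (hpdef : p = ∑ i, P i ^ 2) (hppos : 0 < p)
    (hR : 0 < R) (hf : 0 < f) (hh : 0 < h) (hM : 0 < M) (hT : 0 < T)
    (hc : c ^ 2 < h ^ 2) (hAdef : A = M + p / T) (hl : l = h - 1 / R)
    (hNs : Ns = R ^ 2 * (h ^ 2 - c ^ 2)) (hMT : 2 * (M / T) = 1 - Ns)
    (hF : 0 ≤ M ^ 2 - Ns * p)
    (mu JN Q : C(S, ℝ)) (J X : Fin n → C(S, ℝ))
    (hJN : JN = ∑ i, D.N i * J i)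
    (hXt : ∀ s, ∑ i, D.N i s * X i s = 0)
    (hx : ∀ i, x i = D.avg (X i)) (hP : ∀ i, P i = T * R / f * x i / ((n : ℝ) - 1))
    (hQ : ∀ s, 0 ≤ Q s) (hmu : ∀ s, 0 ≤ mu s)
    (hdec : ∀ s, ∑ i, J i s ^ 2 ≤ (f * mu s) ^ 2)
    (B : C(S, ℝ)) (hBdef : B = h • mu - (c / f) • JN + (h / f ^ 4) • (∑ i, X i ^ 2 + (1 / 2 : ℝ) • Q))
    (hB : ∀ i, D.avg (D.N i * B) = c / f ^ 3 * (x i / R))
    (hB2 : D.avg (D.q P ^ 2 * B) = p / n * D.avg B
      + 2 * c / (f ^ 3 * R) * D.avg (D.q P * ∑ i, P i • X i)) :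
    (T * R ^ 2 / (((n : ℝ) - 1) * f ^ 2)) * h * (p / T / 10 * D.avg (∑ i, X i ^ 2)) ≤
      A * ((T * R ^ 2 * f ^ 2 / ((n : ℝ) - 1)) * D.avg B) - ((n : ℝ) - 2) * (M / T) * h * p
      - Ns * ∑ i, P i * (-(l / h) * (h + 1 / R) * P i
        + (T * R * f / ((n : ℝ) - 1)) * (D.avg (J i) - (l / h) * D.avg (JN * D.N i))) := by
  have hn' : (3 : ℝ) ≤ n := by exact_mod_cast hn
  have hn1 : (0 : ℝ) < (n : ℝ) - 1 := by linarith only [hn']
  have hnpos : (0 : ℝ) < n := by linarith only [hn1]
  obtain ⟨hp0, hA, hNs1, hNs0, hpA, hcoef, hPx⟩ := key_setup hn P x R f h c l T M A p Ns hpdef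
    hR hf hh hM hT hc hAdef hl hNs hMT hF hP
  have hqp : ∀ s, (D.q P s) ^ 2 ≤ p := fun s => by rw [hpdef]; exact D.q_sq_le P s
  · -- nonzero momentum
    set a : ℝ := √p with hadef
    have ha : 0 < a := Real.sqrt_pos.mpr hppos
    have hap : a ^ 2 = p := Real.sq_sqrt hp0
    set m : ℝ := min M a with hmdef
    have hm0 : 0 < m := lt_min hM ha
    have hmM : m ≤ M := min_le_left _ _
    obtain ⟨ep, hep2, hepc⟩ : ∃ ep : ℝ, ep ^ 2 = 1 ∧ ep * c = |c| := by
      rcases le_or_gt 0 c with h0 | h0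
      · exact ⟨1, by norm_num, by rw [one_mul, abs_of_nonneg h0]⟩
      · exact ⟨-1, by norm_num, by rw [abs_of_neg h0]; ring⟩
    have hch : |c| < h := abs_lt_of_sq_lt_sq hc hh.le
    have haA : a ≤ A := by
      have : a ^ 2 ≤ A ^ 2 := by rw [hap]; exact hpA
      exact (abs_le_of_sq_le_sq' this hA.le).2
    have hy : 2 * (M / T) ≤ 1 := by linarith only [hNs0, hMT]
    have hNs' : Ns = 1 - 2 * (M / T) := by linarith only [hMT]
    set g0 : ℝ := 1 - 1 / (n : ℝ) with hg0
    set k0 : ℝ := m / (T * a) with hk0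
    set ga : ℝ := m / T * g0 * ep with hga
    -- the variable v = ep q / a
    have hv : ∀ s, (ep * D.q P s / a) ^ 2 ≤ 1 := by
      intro s
      rw [div_pow, mul_pow, hep2, one_mul, hap, div_le_one hppos]
      exact hqp s
    have hav : ∀ s, a * (ep * D.q P s / a) = ep * D.q P s := fun s => by (clear * - ha; field_simp)
    have havsq : ∀ s, (a * (ep * D.q P s / a)) ^ 2 = (D.q P s) ^ 2 := fun s => by
      rw [hav, mul_pow, hep2, one_mul]
    -- the subtracted polynomial
    have hd : ∀ s, m * a / T * (1 / n - (ep * D.q P s / a) ^ 2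
        + (1 - 1 / n) * (ep * D.q P s / a)) =
        k0 * p / n - k0 * (D.q P s) ^ 2 + ga * D.q P s := by
      intro s
      have e1 : (ep * D.q P s / a) ^ 2 = (D.q P s) ^ 2 / p := by
        rw [div_pow, mul_pow, hep2, one_mul, hap]
      rw [e1, hk0, hga, hg0, ← hap]
      (clear * - ha hn hT hm0; field_simp)
    have hWval : ∀ s, (ContinuousMap.const S (A - k0 * p / n) + (c / h - ga) • D.q P
        + k0 • D.q P ^ 2 : C(S, ℝ)) s = c / h * D.q P s + (A - m * a / T *
          (1 / n - (ep * D.q P s / a) ^ 2 + (1 - 1 / n) * (ep * D.q P s / a))) := by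
      intro s
      rw [hd]
      simp only [ContinuousMap.coe_add, Pi.add_apply, ContinuousMap.const_apply,
        ContinuousMap.coe_smul, Pi.smul_apply, smul_eq_mul, ContinuousMap.coe_pow, Pi.pow_apply]
      ring
    have hsq := fun s => omega_sq (n : ℝ) a A M T m (ep * D.q P s / a) hn' ha hM hT hm0 hmM haA
      hy (hv s)
    have hlow := fun s => omega_low_s (n : ℝ) a M T m (ep * D.q P s / a) (|c| / h) hn' ha hM hT
      hmdef (by rw [hap, ← hNs']; linarith only [hF]) (hv s) (by (clear * - hh; positivity))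
      (by rw [div_le_one hh]; exact hch.le)
    have hcq : ∀ s, |c| / h * a * (ep * D.q P s / a) = c / h * D.q P s := by
      intro s
      have : |c| / h * a * (ep * D.q P s / a) = |c| / h * (a * (ep * D.q P s / a)) := by ring
      rw [this, hav, ← hepc]
      have : ep * c / h * (ep * D.q P s) = ep ^ 2 * (c / h * D.q P s) := by ring
      rw [this, hep2, one_mul]
    have hcm : ∀ s, |c| / h * m * (ep * D.q P s / a) = c / h * m / a * D.q P s := by
      intro s
      have : |c| / h * m * (ep * D.q P s / a) = (|c| / h * a * (ep * D.q P s / a)) * (m / a) := by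
        (clear * - ha hm0 hh; field_simp)
      rw [this, hcq]; ring
    set t : ℝ := c * m / (h * M) with htdef
    have ht1 : t ^ 2 < 1 := by
      rw [htdef, div_pow, div_lt_one (by positivity), mul_pow, mul_pow]
      have : m ^ 2 ≤ M ^ 2 := pow_le_pow_left₀ hm0.le hmM 2
      have h0 : 0 < M ^ 2 := by positivity
      calc c ^ 2 * m ^ 2 ≤ c ^ 2 * M ^ 2 := mul_le_mul_of_nonneg_left this (sq_nonneg c)
        _ < h ^ 2 * M ^ 2 := mul_lt_mul_of_pos_right hc h0
    have hWlow : ∀ s, M * (1 + t / a * D.q P s) + p / T / 10 ≤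
        (ContinuousMap.const S (A - k0 * p / n) + (c / h - ga) • D.q P
        + k0 • D.q P ^ 2 : C(S, ℝ)) s := by
      intro s
      rw [hWval]
      have h1 := hlow s
      rw [hcm, hcq, hap] at h1
      have e1 : M * (1 + t / a * D.q P s) = M + c / h * m / a * D.q P s := by
        rw [htdef]; (clear * - ha hh hM; field_simp)
      rw [e1, hAdef]
      linarith only [h1]
    have hX := X_term2_s D hn P x R f h c M T p a m t (p / T / 10) hpdef hR hf hh hM hT ha hap
      htdef ht1 _ hWlow X hXt hx hP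
    have hWpos : ∀ s, 0 ≤ (ContinuousMap.const S (A - k0 * p / n) + (c / h - ga) • D.q P
        + k0 • D.q P ^ 2 : C(S, ℝ)) s := by
      intro s
      refine le_trans ?_ (hWlow s)
      have h0 := (mul_pos hM (symm2 p (D.q P s) t a ha hap (hqp s) ht1).1).le
      have h1 : 0 < p / T / 10 := by (clear * - hppos hT; positivity)
      linarith only [h0, h1]
    refine key_abs_s D hn P x R f h c l T M A p Ns k0 ga _ hpdef hR hf hh hM hT hc hAdef hl hNs hMT hF
      mu JN Q J X hJN hP hQ hmu hdec B hBdef hB hB2 _ rfl hWpos ?_ ?_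
    · intro s
      rw [hWval]
      have h1 := (hsq s).2
      rw [havsq, hap, ← hNs'] at h1
      have e1 : c / h * D.q P s + (A - m * a / T *
          (1 / n - (ep * D.q P s / a) ^ 2 + (1 - 1 / n) * (ep * D.q P s / a)))
          - c / h * D.q P s = A - m * a / T *
          (1 / n - (ep * D.q P s / a) ^ 2 + (1 - 1 / n) * (ep * D.q P s / a)) := by ring
      rw [e1]
      exact h1
    · -- combine
      have e1 : k0 * (2 * c * T * R / (((n : ℝ) - 1) * f)) =
          2 * c * m * R / (((n : ℝ) - 1) * f * a) := by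
        rw [hk0]; (clear * - hT hf hn1 hR ha hm0; field_simp)
      have e2 : ga * c * p = |c| * m * g0 * p / T := by
        rw [hga]
        have : m / T * g0 * ep * c * p = m / T * g0 * (ep * c) * p := by ring
        rw [this, hepc]; ring
      rw [e1, e2]
      have hg0' : 0 ≤ g0 := by
        rw [hg0, sub_nonneg, div_le_one hnpos]; linarith only [hn1]
      -- |c| m ≥ M h t²
      have e3 : (M * h / T) * (g0 * t ^ 2 * p) ≤ |c| * m * g0 * p / T := by
        have e4 : (M * h / T) * (g0 * t ^ 2 * p) =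
            (|c| * m * g0 * p / T) * (|c| * m / (h * M)) := by
          rw [htdef, div_pow, mul_pow, ← sq_abs c]; (clear * - hppos hm0 hT hh hM; field_simp)
        rw [e4]
        have h5 : |c| * m / (h * M) ≤ 1 := by
          rw [div_le_one (by positivity)]
          exact mul_le_mul hch.le hmM hm0.le hh.le
        have h6 : 0 ≤ |c| * m * g0 * p / T := by (clear * - hM hppos hg0' hT; positivity)
        exact mul_le_of_le_one_right h6 h5
      have e5 : (M * h / T) * (n * p - (1 - 1 / (n : ℝ)) * t ^ 2 * p) =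
          n * (M / T) * h * p - (M * h / T) * (g0 * t ^ 2 * p) := by
        rw [hg0]; ring
      rw [e5] at hX
      linarith only [e3, hX]

end Vale.Agent.P366
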