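import Vale.Agent.P366.T5.Sphere

/-! The bound of the torsion term of the centred spheres. -/

noncomputable section
namespace Vale.Agent.T4
open Vale.Agent.P366.Stmt

variable {n : ℕ}

/-- The squared norm at `x` of the restriction of `K(ν, ·)` to the centred sphere through `x`, `ν`
its unit normal. -/
def sphereShift (g K : Field n) (x : E n) : ℝ :=
  ∑ k, ∑ l, (up g k l x - nrm g len k x * nrm g len l x) *
    (∑ i, K x i k * nrm g len i x) * ∑ i, K x i l * nrm g len i x

/-- `μ - u J(ν) + (1 - u ^ 2) |K(ν, ·)| ^ 2` at `x`, with `u = tr_S K / H`. -/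
def sphereSlack (g K : Field n) (x : E n) : ℝ :=
  mu g K x - sphereRatio g K x * (∑ i, mom g K i x * nrm g len i x) +
    (1 - sphereRatio g K x ^ 2) * sphereShift g K x

/-- The condition on `K`: there is a constant `0 ≤ θ < 1` such that for `R ≤ |x|` each centred
sphere `S` has either no untrapped point, that is `H ≤ |tr_S K|` on all of `S`, or it is untrapped,
`|tr_S K| < H` on all of `S`, and the integral of the torsion term is at most `θ` times the integral
of `μ - u J(ν) + (1 - u ^ 2) |K(ν, ·)| ^ 2`, `u = tr_S K / H`. -/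
def TorsionBound (g K : Field n) (R : ℝ) : Prop := ∃ θ : ℝ, 0 ≤ θ ∧ θ < 1 ∧ ∀ r, R ≤ r →
  (∀ x, len x = r → sphereMean g x ≤ |trS g K len x|) ∨
    ((∀ x, len x = r → |trS g K len x| < sphereMean g x) ∧
      sph (vol n) r (sphereTorsion g K) ≤ θ * sph (vol n) r (sphereSlack g K))

end Vale.Agent.T4
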