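import Vale.Agent.P366.T5.X1b355
import Vale.Agent.P366.T5.X6_68
import Vale.Agent.P366.T5.X8_92

/-!
T6, class Y: the torsion term may be compensated by the energy density and by `K(ν, ·)`.
-/

open MeasureTheory Metric Filter Topology Set
open scoped ContDiff ENNReal Matrix

noncomputable section
namespace Vale.Agent.T4
open Vale.Agent.P366.Stmt Vale.Agent.P366.T2
open Vale.Agent.P366 (sphI sphM av flux dvg norm_smul_sph integrable_sph sphI_hasDerivAt
  flux_hasDerivAt isOpen_outside sphI_congr sphI_continuousOn)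

variable {n : ℕ}

/-- the compensating terms -/
def slk (B : Bg n) (G g K : Field n) (x : E n) : ℝ :=
  (2 * B.H (len x) * mu g K x -
    2 * kpf G g K x * (√(1 / rad g x) * ∑ j, nx j x * mom g K j x)) +
    2 / B.H (len x) * (B.H (len x) ^ 2 - kpf G g K x ^ 2) * S2 G (bf g K) (bf g K) x

/-- the bound of the torsion term -/
def TorB (B : Bg n) (G g K : Field n) (r : ℝ) : Prop :=
  ∃ θ : ℝ, 0 ≤ θ ∧ θ < 1 ∧ 2 * sphI (tors G g K) r ≤ θ * sphI (slk B G g K) r

/-- the hypothesis on `K`, class Y -/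
def DichY (B : Bg n) (G g K : Field n) : Prop := ∀ r, B.R ≤ r →
  (∀ x, len x = r → B.H r ≤ |kpf G g K x|) ∨
    ((∀ x, len x = r → |kpf G g K x| < B.H r) ∧ TorB B G g K r)

lemma Lapse.S2_sq {G g : Field n} {R : ℝ} (h : Lapse G g R) {x : E n} (hx : R ≤ len x)
    (u w : Fin n → E n → ℝ) (a b : ℝ) :
    0 ≤ a ^ 2 * S2 G u u x + 2 * a * b * S2 G u w x + b ^ 2 * S2 G w w x := by
  have h1 := h.S2_nonneg hx (fun i => a * u i x + b * w i x)
  have e3 : S2 G w u x = S2 G u w x := by
    unfold S2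
    rw [Finset.sum_comm]
    refine Finset.sum_congr rfl fun k _ => Finset.sum_congr rfl fun l _ => ?_
    rw [h.Sm_symm hx l k]; ring
  have e1 : ∑ k, ∑ l, Sm G k l x * (a * u k x + b * w k x) * (a * u l x + b * w l x) =
      a ^ 2 * S2 G u u x + a * b * S2 G u w x + a * b * S2 G w u x + b ^ 2 * S2 G w w x := by
    unfold S2
    simp only [Finset.mul_sum, ← Finset.sum_add_distrib]
    exact Finset.sum_congr rfl fun k _ => Finset.sum_congr rfl fun l _ => by ring
  rw [e1, e3] at h1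
  linarith

section

variable {G g K : Field n} {B : Bg n}

/-- the pointwise inequality with the compensating terms -/
theorem slk_le (hA : StA n) (hB : StB n) (h : Lapse G g B.R) (hF : B.Fits0 G)
    (hK : ∀ i j, Smooth (fun x => K x i j))
    (hKs : ∀ x, B.R ≤ len x → ∀ i j, K x i j = K x j i) {x : E n}
    (hx : B.R < len x) (hdec : covNorm g (mom g K) x ≤ mu g K x)
    (hlt : |kpf G g K x| < B.H (len x)) :
    0 ≤ slk B G g K x ∧ slk B G g K x ≤ ptX B G g K x := by
  have hp := h.ppos x hx.le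
  have hHp : 0 < B.H (len x) := (abs_nonneg _).trans_lt hlt
  rw [pointwiseX_id hA hB h hF hK hKs hx hHp]
  unfold slk
  obtain ⟨-, -, -, b4⟩ := hB G g K B.R h hK hKs x hx
  have hII2 := h.ctr_comb hx.le K (IIf G) (trT G K x / B.H (len x))
  have hS2 := h.S2_nonneg hx.le (fun i => bf g K i x)
  have hS2' : 0 ≤ S2 G (bf g K) (bf g K) x := hS2
  have hvp : 0 < 1 / rad g x := by positivity
  have hsp : 0 < √(1 / rad g x) := Real.sqrt_pos.2 hvp
  have hsq := h.S2_sq hx.le (glf g) (bf g K) (B.H (len x)) (kpf G g K x)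
  set s := √(1 / rad g x) with hs
  set H := B.H (len x) with hH
  set κ := kpf G g K x with hκ
  have hcov : 0 ≤ covNorm g (mom g K) x := Real.sqrt_nonneg _
  have hdec2 : s * |∑ j, nx j x * mom g K j x| ≤ covNorm g (mom g K) x := by
    calc s * |∑ j, nx j x * mom g K j x| ≤ s * (√(rad g x) * covNorm g (mom g K) x) :=
          mul_le_mul_of_nonneg_left (b4 (mom g K)) hsp.le
      _ = covNorm g (mom g K) x := by rw [← mul_assoc, sqrt_inv_mul hp, one_mul]
  have hmu0 : 0 ≤ mu g K x := hcov.trans hdec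
  have hT1 : 0 ≤ 2 * H * mu g K x - 2 * κ * (s * ∑ j, nx j x * mom g K j x) := by
    have h1 : κ * (s * ∑ j, nx j x * mom g K j x) ≤ |κ| * (s * |∑ j, nx j x * mom g K j x|) := by
      have := le_abs_self (κ * (s * ∑ j, nx j x * mom g K j x))
      rwa [abs_mul, abs_mul, abs_of_pos hsp] at this
    have h2 : |κ| * (s * |∑ j, nx j x * mom g K j x|) ≤ |κ| * mu g K x :=
      mul_le_mul_of_nonneg_left (hdec2.trans hdec) (abs_nonneg _)
    have h3 : |κ| * mu g K x ≤ H * mu g K x := mul_le_mul_of_nonneg_right hlt.le hmu0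
    linarith
  have hT2 : 2 / H * (H ^ 2 - κ ^ 2) * S2 G (bf g K) (bf g K) x ≤
      2 * H * (S2 G (glf g) (glf g) x + S2 G (bf g K) (bf g K) x) +
        4 * κ * S2 G (glf g) (bf g K) x := by
    have h1 : 2 * H * (S2 G (glf g) (glf g) x + S2 G (bf g K) (bf g K) x) +
        4 * κ * S2 G (glf g) (bf g K) x -
        2 / H * (H ^ 2 - κ ^ 2) * S2 G (bf g K) (bf g K) x =
        2 / H * (H ^ 2 * S2 G (glf g) (glf g) x + 2 * H * κ * S2 G (glf g) (bf g K) x +
          κ ^ 2 * S2 G (bf g K) (bf g K) x) := by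
      field_simp
      ring
    have h2 : 0 ≤ 2 / H * (H ^ 2 * S2 G (glf g) (glf g) x + 2 * H * κ * S2 G (glf g) (bf g K) x +
          κ ^ 2 * S2 G (bf g K) (bf g K) x) := mul_nonneg (by positivity) hsq
    linarith
  have hT3 := mul_nonneg hHp.le hII2
  have hκH : κ ^ 2 < H ^ 2 := by
    rw [← sq_abs κ]
    exact pow_lt_pow_left₀ hlt (abs_nonneg _) two_ne_zero
  have hT5 : 0 ≤ 2 / H * (H ^ 2 - κ ^ 2) * S2 G (bf g K) (bf g K) x :=
    mul_nonneg (mul_nonneg (by positivity) (by linarith)) hS2'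
  constructor
  · linarith
  · linarith

/-- the integral of the compensating terms -/
theorem sphI_slk_le [Nontrivial (E n)] (hA : StA n) (hB : StB n) (h : Lapse G g B.R)
    (hF : B.FitsW G) (hK : ∀ i j, Smooth (fun x => K x i j))
    (hKs : ∀ x, B.R ≤ len x → ∀ i j, K x i j = K x j i) {r : ℝ} (hr : B.R < r)
    (hdec : ∀ x, B.R < len x → covNorm g (mom g K) x ≤ mu g K x)
    (hHp : 0 < B.H r) (hlt : ∀ x, len x = r → |kpf G g K x| < B.H r) :
    (∀ x : E n, ‖x‖ = r → 0 ≤ Fx B G g K r x) ∧ 0 ≤ sphI (slk B G g K) r ∧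
      sphI (slk B G g K) r ≤ sphI (Fx B G g K r) r := by
  have h0 : 0 < r := B.hR.trans hr
  have hpt : ∀ x : E n, ‖x‖ = r → 0 ≤ slk B G g K x ∧ slk B G g K x ≤ Fx B G g K r x := by
    intro x hx
    have hx' : len x = r := hx
    have hxR : B.R < len x := by rw [hx']; exact hr
    have hl : |kpf G g K x| < B.H (len x) := by rw [hx']; exact hlt x hx'
    rw [Fx_eq hHp hx']
    obtain ⟨h1, h1'⟩ := slk_le hA hB h hF.toFits0 hK hKs hxR (hdec x hxR) hl
    have h2 := hF.hII x hxR
    have h3 := w_pos h hxR.le hl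
    have h4 : 0 < B.H (len x) := by rw [hx']; exact hHp
    have h5 : 0 ≤ (1 / rad g x * B.H (len x) ^ 2 - trT G K x ^ 2) / B.H (len x) *
        (ctr G (IIf G) (IIf G) x - B.II2 (len x)) :=
      mul_nonneg (div_nonneg h3.le h4.le) (by linarith)
    exact ⟨h1, by linarith⟩
  obtain ⟨hFc, -⟩ := sphI_Fx (B := B) h hK hr
  refine ⟨fun x hx => (hpt x hx).1.trans (hpt x hx).2,
    integral_nonneg fun θ => (hpt _ (norm_smul_sph h0.le θ)).1, ?_⟩
  unfold sphI
  refine integral_mono_of_nonneg (Eventually.of_forall fun θ =>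
    (hpt _ (norm_smul_sph h0.le θ)).1) (integrable_sph h.hR.le hr hFc)
    (Eventually.of_forall fun θ => (hpt _ (norm_smul_sph h0.le θ)).2)

/-- **Block Y1**: the averaged inequality. -/
theorem stY1 [Nontrivial (E n)] (h : Lapse G g B.R) (hF : B.FitsW G)
    (hK : ∀ i j, Smooth (fun x => K x i j))
    (hKs : ∀ x, B.R ≤ len x → ∀ i j, K x i j = K x j i) {r : ℝ} (hr : B.R < r)
    (hdec : ∀ x, B.R < len x → covNorm g (mom g K) x ≤ mu g K x)
    (hlt : ∀ x, len x = r → |kpf G g K x| < B.H r) (htors : TorB B G g K r) :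
    Yav' B G g K r ≤ B.H r * B.Rh r - B.H r * Yav B G g K r -
      Yav B G g K r / B.H r * B.II2 r ∧
    (B.H r * B.Rh r - B.H r * Yav B G g K r - Yav B G g K r / B.H r * B.II2 r ≤
      Yav' B G g K r → ∀ x : E n, len x = r → PtEqX B G g K x) := by
  have h0 : 0 < r := B.hR.trans hr
  have hω : 0 < Vale.Agent.P366.omega n := Vale.Agent.P366.omega_pos'
  obtain ⟨x0, hx0⟩ : ∃ x0 : E n, len x0 = r := by
    obtain ⟨y, hy⟩ := exists_ne (0 : E n)
    refine ⟨(r / ‖y‖) • y, ?_⟩
    have : ‖y‖ ≠ 0 := norm_ne_zero_iff.2 hy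
    unfold len
    rw [norm_smul, Real.norm_eq_abs, abs_of_nonneg (by positivity), div_mul_cancel₀ _ this]
  have hHp : 0 < B.H r := (abs_nonneg _).trans_lt (hlt x0 hx0)
  obtain ⟨hFc, hI⟩ := sphI_Fx (B := B) h hK hr
  obtain ⟨hpt, hs0, hs1⟩ := sphI_slk_le (stA n) (stB n) h hF hK hKs hr hdec hHp hlt
  obtain ⟨θ, hθ0, hθ1, hθ⟩ := htors
  have hI0 : 0 ≤ sphI (Fx B G g K r) r := hs0.trans hs1
  have hθF : θ * sphI (slk B G g K) r ≤ θ * sphI (Fx B G g K r) r :=
    mul_le_mul_of_nonneg_left hs1 hθ0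
  have e6 : sphI (tors G g K) r = Vale.Agent.P366.omega n * av (tors G g K) r := by
    unfold av
    field_simp
  have h3 : B.H r * B.II2 r - B.II2 r / B.H r * B.H r ^ 2 = 0 := by field_simp; ring
  have h4 : Yav B G g K r / B.H r * B.II2 r = B.II2 r / B.H r * Yav B G g K r := by ring
  rw [h3, zero_mul, add_zero] at hI
  have h2 : B.H r * av (leafScal G) r ≤ B.H r * B.Rh r :=
    mul_le_mul_of_nonneg_left (hF.hRh r hr) hHp.le
  have hI' : sphI (Fx B G g K r) r - 2 * sphI (tors G g K) r = Vale.Agent.P366.omega n *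
      (B.H r * av (leafScal G) r - (Yav' B G g K r +
        B.H r * Yav B G g K r + B.II2 r / B.H r * (Yav B G g K r))) := by
    rw [hI, e6]; ring
  have hkey : (1 - θ) * sphI (Fx B G g K r) r ≤ Vale.Agent.P366.omega n *
      (B.H r * av (leafScal G) r - (Yav' B G g K r +
        B.H r * Yav B G g K r + B.II2 r / B.H r * (Yav B G g K r))) := by
    rw [← hI']; linarith
  rw [h4]
  constructor
  · have h5 : 0 ≤ (1 - θ) * sphI (Fx B G g K r) r := mul_nonneg (by linarith) hI0
    have h6 := nonneg_of_mul_nonneg_right (h5.trans hkey) hω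
    linarith
  · intro heq x hx
    have h5 : Vale.Agent.P366.omega n *
        (B.H r * av (leafScal G) r - (Yav' B G g K r +
        B.H r * Yav B G g K r + B.II2 r / B.H r * (Yav B G g K r))) ≤ 0 :=
      mul_nonpos_of_nonneg_of_nonpos hω.le (by linarith)
    have h6 : sphI (Fx B G g K r) r ≤ 0 := by
      have h7 := hkey.trans h5
      by_contra hcon
      push Not at hcon
      have := mul_pos (by linarith : (0 : ℝ) < 1 - θ) hcon
      linarith
    have hxr : ‖x‖ = r := hx
    have hz := eq_zero_of_sphI h.hR.le hr hFc hpt h6 hxr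
    rw [Fx_eq hHp hx] at hz
    have hxR : B.R < len x := by rw [hx]; exact hr
    exact pointwise_eqX (stA n) (stB n) h hF.toFits0 hK hKs hxR (hdec x hxR)
      (by rw [hx]; exact hlt x hx) (hF.hII x hxR) hz.le

end

end Vale.Agent.T4
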