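import Vale.Agent.P366.T6.Y1355
import Vale.Agent.P366.T5.X5355
import Vale.Agent.P366.T5.X3355
import Vale.Agent.P366.T5.X7_92

/-! T6, class Y: the ODE argument, the assembly, and the equality case. -/

open MeasureTheory Metric Filter Topology Set
open scoped ContDiff ENNReal Matrix

noncomputable section
namespace Vale.Agent.T4
open Vale.Agent.P366.Stmt Vale.Agent.P366.T2
open Vale.Agent.P366 (sphI sphM av norm_smul_sph integrable_sph sphI_congr sphI_continuousOn)
open Vale.Agent.C92 (outside_nonneg theta_compare)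

variable {n : ℕ}

section

variable {G g K : Field n} {B : Bg n}

/-- **The last radius without untrapped points.** -/
theorem exists_r0Y (hn : 0 < n) (h : Lapse G g B.R) (hK : ∀ i j, Smooth (fun x => K x i j))
    (hd : DichY B G g K) (h0 : ∃ x, len x = B.R ∧ B.H B.R + kpf G g K x ≤ 0)
    (hinf : ∀ᶠ r in atTop, ∀ x, len x = r → |kpf G g K x| < B.H r) :
    ∃ r0, B.R ≤ r0 ∧ (∀ x, len x = r0 → |kpf G g K x| = B.H r0) ∧
      ∀ r, r0 < r → (∀ x, len x = r → |kpf G g K x| < B.H r) ∧ TorB B G g K r := by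
  obtain ⟨R1, hR1⟩ := eventually_atTop.1 hinf
  set S : Set ℝ := {r | B.R ≤ r ∧ ∀ x, len x = r → B.H r ≤ |kpf G g K x|} with hS
  have hHc : ContinuousOn B.H (Ici B.R) := fun r hr =>
    (B.H_diff r hr).continuousAt.continuousWithinAt
  have hSc : IsClosed S := by
    have e : S = ⋂ θ : sphere (0 : E n) 1, {r | B.R ≤ r ∧ 0 ≤ |kpf G g K (r • (θ : E n))| - B.H r} ∩
        {r | B.R ≤ r} := by
      ext r
      simp only [hS, mem_ofPred_eq, mem_iInter, mem_inter_iff]
      constructor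
      · rintro ⟨h1, h2⟩ θ
        have hr0 : 0 ≤ r := B.hR.le.trans h1
        exact ⟨⟨h1, by have := h2 _ (len_smul_sph hr0 θ); linarith⟩, h1⟩
      · intro h1
        obtain ⟨y, hy⟩ := exists_len (n := n) hn (r := 1) zero_le_one
        have h2 := h1 ⟨y, by rw [mem_sphere_zero_iff_norm]; exact hy⟩
        refine ⟨h2.2, fun x hx => ?_⟩
        have hr0 : 0 < r := B.hR.trans_le h2.2
        obtain ⟨θ, hθ⟩ := exists_theta (x := x) (by rw [hx]; exact hr0)
        have h3 := (h1 θ).1.2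
        rw [hx] at hθ
        rw [← hθ] at h3
        linarith
    rw [e]
    refine isClosed_iInter fun θ => ?_
    have h1 : ContinuousOn (fun r : ℝ => |kpf G g K (r • (θ : E n))| - B.H r) (Ici B.R) :=
      (kpf_ray h hK θ).abs.sub hHc
    have h2 := h1.preimage_isClosed_of_isClosed isClosed_Ici (isClosed_Ici (a := (0 : ℝ)))
    convert h2 using 1
    ext r
    simp only [mem_ofPred_eq, mem_inter_iff, mem_Ici, mem_preimage]
    tauto
  have hSne : S.Nonempty := by
    refine ⟨B.R, le_rfl, ?_⟩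
    rcases hd B.R le_rfl with h1 | h1
    · exact h1
    · obtain ⟨x, hx, h2⟩ := h0
      have h3 := h1.1 x hx
      have := neg_le_abs (kpf G g K x)
      linarith
  have hSb : BddAbove S := ⟨max B.R R1, fun r hr => by
    by_contra hlt
    push Not at hlt
    have h1 := hR1 r ((le_max_right _ _).trans hlt.le)
    obtain ⟨x, hx⟩ := exists_len (n := n) hn (r := r) (B.hR.le.trans hr.1)
    exact absurd (hr.2 x hx) (not_le.2 (h1 x hx))⟩
  have hr0S : sSup S ∈ S := hSc.csSup_mem hSne hSb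
  have hgt : ∀ r, sSup S < r → (∀ x, len x = r → |kpf G g K x| < B.H r) ∧
      TorB B G g K r := by
    intro r hr
    rcases hd r (hr0S.1.trans hr.le) with h1 | h1
    · exact absurd (le_csSup hSb ⟨hr0S.1.trans hr.le, h1⟩) (not_le.2 hr)
    · exact h1
  refine ⟨sSup S, hr0S.1, fun x hx => le_antisymm ?_ (hr0S.2 x hx), hgt⟩
  have hr0 : 0 < sSup S := B.hR.trans_le hr0S.1
  obtain ⟨θ, hθ⟩ := exists_theta (x := x) (by rw [hx]; exact hr0)
  rw [hx] at hθ
  have hsub : Ioi (sSup S) ⊆ Ici B.R := fun r hr => hr0S.1.trans (le_of_lt hr)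
  have h1 : Tendsto (fun r : ℝ => |kpf G g K (r • (θ : E n))|) (𝓝[>] (sSup S))
      (𝓝 |kpf G g K (sSup S • (θ : E n))|) := ((kpf_ray h hK θ (sSup S) hr0S.1).mono hsub).abs
  have h2 : Tendsto B.H (𝓝[>] (sSup S)) (𝓝 (B.H (sSup S))) := (hHc _ hr0S.1).mono hsub
  rw [hθ]
  refine le_of_tendsto_of_tendsto h1 h2 ?_
  filter_upwards [self_mem_nhdsWithin] with r hr
  exact ((hgt r hr).1 _ (len_smul_sph (hr0.trans hr).le θ)).le

/-- **Monotonicity.** -/
theorem monoY (hn : 3 ≤ n) (h : Lapse G g B.R) (hF : B.FitsW G)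
    (hK : ∀ i j, Smooth (fun x => K x i j))
    (hKs : ∀ x, B.R ≤ len x → ∀ i j, K x i j = K x j i)
    (hdec : ∀ x, B.R < len x → covNorm g (mom g K) x ≤ mu g K x) {r0 : ℝ} (hr0 : B.R ≤ r0)
    (hz : ∀ x, len x = r0 → |kpf G g K x| = B.H r0)
    (hgt : ∀ r, r0 < r → (∀ x, len x = r → |kpf G g K x| < B.H r) ∧ TorB B G g K r) :
    MonotoneOn (fun r => B.rho r ^ ((n : ℝ) - 2) *
        (1 - Yav B G g K r / (4 * B.lam r ^ 2))) (Ici r0) ∧
      ∀ r, r0 ≤ r → B.rho r0 ^ ((n : ℝ) - 2) ≤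
        B.rho r ^ ((n : ℝ) - 2) * (1 - Yav B G g K r / (4 * B.lam r ^ 2)) := by
  have : Nontrivial (E n) := by
    have : Nonempty (Fin n) := ⟨⟨0, by omega⟩⟩
    infer_instance
  have hn3 : (3 : ℝ) ≤ n := by exact_mod_cast hn
  have hN : 1 < (n : ℝ) - 1 := by linarith
  obtain ⟨hYc, hYd⟩ := stX1d h (B := B) hK
  have hR : ∀ r, r0 ≤ r → B.R ≤ r := fun r hr => hr0.trans hr
  have hHp : ∀ r, r0 < r → 0 < B.H r := by
    intro r hr
    obtain ⟨x, hx⟩ := exists_len (n := n) (by omega) (r := r) (B.hR.le.trans (hR r hr.le))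
    exact (abs_nonneg _).trans_lt ((hgt r hr).1 x hx)
  have h1 := mono_main2 (N := (n : ℝ) - 1) (r0 := r0) hN (c := fun _ => 1) (H := B.H)
    (Y := Yav B G g K) (Y' := Yav' B G g K) (ρ := B.rho) (R := B.Rh)
    (II2 := B.II2) (lam := B.lam) (L2 := B.L2) (I := B.IT)
    (fun r hr => one_pos) hHp (Yav_zero h hr0 hz)
    (fun r hr => Yav_nonneg h hK (hr0.trans_lt hr) (hgt r hr).1)
    (hYc.mono fun r hr => hR r hr)
    (fun r hr => (B.rho_hasDerivAt (hR r hr)).continuousAt.continuousWithinAt)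
    (fun r hr => (B.lam_deriv r (hR r hr)).continuousAt.continuousWithinAt)
    (fun r hr => B.rho_pos (hR r hr))
    (fun r hr => B.lam_pos r (hR r hr))
    (fun r hr => B.rho_hasDerivAt (hR r hr.le))
    (fun r hr => hYd r (hr0.trans_lt hr))
    (fun r hr => by
      rw [one_mul]
      exact (stY1 h hF hK hKs (hr0.trans_lt hr) hdec (hgt r hr).1 (hgt r hr).2).1)
    (fun r hr => (B.lam_deriv r (hR r hr.le)).congr_deriv (by rw [one_mul]))
    (fun r hr => B.hU r (hR r hr.le) _)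
    (fun r hr => B.hL r (hR r hr.le))
    (fun r hr => B.hJ r (hR r hr.le))
  have e : (n : ℝ) - 1 - 1 = (n : ℝ) - 2 := by ring
  rw [e] at h1
  exact h1

end

/-- **The Penrose inequality for class Y.** -/
theorem penroseY (hn : 3 ≤ n) (hX3 : StX3 n) (hX4 : StX4 n) {X : Exterior n} {G : Field n}
    {B : Bg n} (h : Lapse G X.g B.R) (hB : B.FitsW G) (hL : B.LamOK G) (hAF : X.IsAF)
    (hDEC : X.DEC) (hT : X.Trapped) {m : ℝ} (hm : X.IsEnergy m)
    (hR : IsGreatest {r | ∃ x, X.F x = 0 ∧ len x = r} B.R) (hd : DichY B G X.g X.K) :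
    X.Amin ≠ ⊤ ∧ 0 < m ∧
      (X.Amin.toReal / omega n) ^ (((n : ℝ) - 2) / (n - 1)) / 2 ≤ m := by
  have : Nonempty (Fin n) := ⟨⟨0, by omega⟩⟩
  have : Nontrivial (E n) := inferInstance
  have hout := outside_nonneg (by omega) X hR
  have hKsm := fun i j => (X.smooth i j).2
  obtain ⟨hlim, hinf⟩ := hX3 h hB.toFits0 hL hAF hm
  obtain ⟨r0, hr0, hz, hgt⟩ := exists_r0Y (by omega) h hKsm hd (hX4 h hB.toFits0 hT hR) hinf
  obtain ⟨-, hbd⟩ := monoY hn h hB hKsm (fun x _ i j => (X.symm x i j).2)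
    (fun x hx => hDEC x (hout x hx.le)) hr0 hz hgt
  have hle : B.rho r0 ^ ((n : ℝ) - 2) ≤ 2 * m := by
    refine ge_of_tendsto hlim ?_
    filter_upwards [eventually_ge_atTop r0] with r hr
    exact hbd r hr
  have hρ := B.rho_pos hr0
  have hn1 : (n : ℝ) - 1 ≠ 0 := by
    have : (3 : ℝ) ≤ n := by exact_mod_cast hn
    linarith
  have e : B.rho r0 ^ ((n : ℝ) - 1) = B.ar r0 := by
    unfold Bg.rho
    rw [← Real.rpow_mul (B.ar_pos r0 hr0).le, one_div, inv_mul_cancel₀ hn1, Real.rpow_one]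
  have hAm : X.Amin ≤ ENNReal.ofReal (omega n * B.rho r0 ^ ((n : ℝ) - 1)) := by
    rw [e]
    exact areaF (by omega) h hB.toFits0 hR hr0
  obtain ⟨h1, h2, h3⟩ := Vale.Agent.P366.T2.conclude hn (P := fun _ : Fin n => 0) rfl hρ hAm hle
  simp only [ne_eq, OfNat.ofNat_ne_zero, not_false_eq_true, zero_pow, Finset.sum_const_zero,
    Real.sqrt_zero, sub_zero] at h2 h3
  rw [Real.sqrt_sq h2.le] at h3
  exact ⟨h1, h2, h3⟩

/-- **The equality case for class Y.** -/
theorem rigidY (hn : 3 ≤ n) (hEmb : StEmb n) (hX3 : StX3 n) (hX7 : StX7 n)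
    {X : Exterior n} {G : Field n}
    {B : Bg n} (h : Lapse G X.g B.R) (hB : B.FitsW G) (hL : B.LamOK G) (hAF : X.IsAF)
    (hDEC : X.DEC) (hT : X.Trapped) {m : ℝ} (hm : X.IsEnergy m)
    (hR : IsGreatest {r | ∃ x, X.F x = 0 ∧ len x = r} B.R) (hd : DichY B G X.g X.K)
    (hO : Outermost X)
    (heq : (X.Amin.toReal / omega n) ^ (((n : ℝ) - 2) / (n - 1)) / 2 = m)
    (hround : (∀ r, B.R < r → B.lam r ^ 2 = ((n : ℝ) - 1) * B.L2 r ∧
        B.Rh r / 4 + B.L2 r = B.lam r ^ 2) →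
      (∀ x, B.R < len x → ctr G (IIf G) (IIf G) x = B.II2 (len x)) →
      B.RoundAt G ∧ ∀ r, B.R < r → B.lam r = ((n : ℝ) - 1) / (2 * B.rho r)) :
    IsSlice m X.g X.K {x | B.R < len x} := by
  have : Nonempty (Fin n) := ⟨⟨0, by omega⟩⟩
  have : Nontrivial (E n) := inferInstance
  have hn3 : (3 : ℝ) ≤ n := by exact_mod_cast hn
  have hN : 1 < (n : ℝ) - 1 := by linarith
  have hout := outside_nonneg (by omega) X hR
  have hKsm := fun i j => (X.smooth i j).2
  have hKsy : ∀ x, B.R ≤ len x → ∀ i j, X.K x i j = X.K x j i := fun x _ i j => (X.symm x i j).2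
  have hdec : ∀ x, B.R < len x → covNorm X.g (mom X.g X.K) x ≤ mu X.g X.K x :=
    fun x hx => hDEC x (hout x hx.le)
  obtain ⟨hlim, hinf⟩ := hX3 h hB.toFits0 hL hAF hm
  obtain ⟨r0, hr0, hz, hgt⟩ := exists_r0Y (by omega) h hKsm hd
    (stX4 (by omega) h hB.toFits0 hT hR) hinf
  obtain ⟨hmono, hbd⟩ := monoY hn h hB hKsm hKsy hdec hr0 hz hgt
  have hω : 0 < omega n := by
    rw [Vale.Agent.P366.omega_eq]
    exact Vale.Agent.P366.omega_pos'
  -- the area bound
  have hA : ∀ r, B.R ≤ r → 2 * m ≤ B.rho r ^ ((n : ℝ) - 2) := by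
    intro r hr
    have hρ := B.rho_pos hr
    have hn1 : (n : ℝ) - 1 ≠ 0 := by linarith
    have e : B.rho r ^ ((n : ℝ) - 1) = B.ar r := by
      unfold Bg.rho
      rw [← Real.rpow_mul (B.ar_pos r hr).le, one_div, inv_mul_cancel₀ hn1, Real.rpow_one]
    have hAm : X.Amin ≤ ENNReal.ofReal (omega n * B.rho r ^ ((n : ℝ) - 1)) := by
      rw [e]
      exact areaF (by omega) h hB.toFits0 hR hr
    have h1 : X.Amin.toReal ≤ omega n * B.rho r ^ ((n : ℝ) - 1) := by
      have h2 := ENNReal.toReal_mono ENNReal.ofReal_ne_top hAm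
      rwa [ENNReal.toReal_ofReal (by positivity)] at h2
    have h3 : X.Amin.toReal / omega n ≤ B.rho r ^ ((n : ℝ) - 1) := by
      rw [div_le_iff₀ hω]; linarith
    have h4 : (X.Amin.toReal / omega n) ^ (((n : ℝ) - 2) / (n - 1)) ≤
        (B.rho r ^ ((n : ℝ) - 1)) ^ (((n : ℝ) - 2) / (n - 1)) :=
      Real.rpow_le_rpow (by positivity) h3 (div_nonneg (by linarith) (by linarith))
    have h5 : (B.rho r ^ ((n : ℝ) - 1)) ^ (((n : ℝ) - 2) / (n - 1)) =
        B.rho r ^ ((n : ℝ) - 2) := by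
      rw [← Real.rpow_mul hρ.le]
      congr 1
      field_simp
    rw [h5] at h4
    linarith
  have hle : B.rho r0 ^ ((n : ℝ) - 2) ≤ 2 * m := by
    refine ge_of_tendsto hlim ?_
    filter_upwards [eventually_ge_atTop r0] with r hr
    exact hbd r hr
  have heq0 : B.rho r0 ^ ((n : ℝ) - 2) = 2 * m := le_antisymm hle (hA r0 hr0)
  -- `r0` is the inner radius
  have hr0R : r0 = B.R := by
    by_contra hne
    have hlt : B.R < r0 := lt_of_le_of_ne hr0 (Ne.symm hne)
    have hmin : IsLocalMin B.rho r0 := by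
      filter_upwards [Ioi_mem_nhds hlt] with r hr
      have h1 := hA r (le_of_lt hr)
      rw [← heq0] at h1
      exact (Real.rpow_le_rpow_iff (B.rho_pos hr0).le (B.rho_pos (le_of_lt hr)).le
        (by linarith)).1 h1
    have h1 := hmin.hasDerivAt_eq_zero (B.rho_hasDerivAt hr0)
    have h2 : B.H r0 = 0 := by
      rcases mul_eq_zero.1 h1 with h3 | h3
      · exact absurd h3 (B.rho_pos hr0).ne'
      · rcases div_eq_zero_iff.1 h3 with h4 | h4
        · linarith
        · exact absurd h4 (by linarith)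
    obtain ⟨x, hx, h4⟩ := outX (by omega) h hB.toFits0 hO hR hlt
    have h5 := hz x hx
    rw [h2] at h4 h5
    rw [abs_eq_zero.1 h5] at h4
    norm_num at h4
  subst hr0R
  -- the mass function is constant
  have hconst : ∀ r, B.R < r → B.rho r ^ ((n : ℝ) - 2) *
      (1 - Yav B G X.g X.K r / (4 * B.lam r ^ 2)) = 2 * m := by
    intro r hr
    refine le_antisymm ?_ ?_
    · refine ge_of_tendsto hlim ?_
      filter_upwards [eventually_ge_atTop r] with s hs
      exact hmono (mem_Ici.2 hr.le) (mem_Ici.2 (hr.le.trans hs)) hs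
    · rw [← heq0]; exact hbd r hr.le
  have hC : 0 < 2 * m := by
    rw [← heq0]; exact Real.rpow_pos_of_pos (B.rho_pos hr0) _
  obtain ⟨hYc, hYd⟩ := stX1d h (B := B) hKsm
  have hHp : ∀ r, B.R < r → 0 < B.H r := by
    intro r hr
    obtain ⟨x, hx⟩ := exists_len (n := n) (by omega) (r := r) (B.hR.trans hr).le
    exact (abs_nonneg _).trans_lt ((hgt r hr).1 x hx)
  have e : (n : ℝ) - 1 - 1 = (n : ℝ) - 2 := by ring
  have hkey := mono_eq2 (N := (n : ℝ) - 1) (r0 := B.R) (C := 2 * m) hN (c := fun _ => 1)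
    (H := B.H) (Y := Yav B G X.g X.K) (Y' := Yav' B G X.g X.K) (ρ := B.rho) (R := B.Rh)
    (II2 := B.II2) (lam := B.lam) (L2 := B.L2) (I := B.IT)
    (fun r hr => one_pos) hHp
    (fun r hr => Yav_nonneg h hKsm hr (hgt r hr).1)
    (fun r hr => B.rho_pos hr)
    (fun r hr => B.lam_pos r hr)
    (fun r hr => B.rho_hasDerivAt hr.le)
    hYd
    (fun r hr => by
      rw [one_mul]
      exact (stY1 h hB hKsm hKsy hr hdec (hgt r hr).1 (hgt r hr).2).1)
    (fun r hr => (B.lam_deriv r hr.le).congr_deriv (by rw [one_mul]))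
    (fun r hr => B.hU r hr.le _)
    (fun r hr => B.hL r hr.le)
    (fun r hr => B.hJ r hr.le) hC
    (fun r hr => by rw [e]; exact hconst r hr)
  have hpt : ∀ x, B.R < len x → PtEqX B G X.g X.K x := by
    intro x hx
    obtain ⟨h1, -, -⟩ := hkey (len x) hx
    rw [one_mul] at h1
    exact (stY1 h hB hKsm hKsy hx hdec (hgt _ hx).1 (hgt _ hx).2).2 h1.ge x rfl
  obtain ⟨hro, hlam⟩ := hround (fun r hr => (hkey r hr).2) (fun x hx => (hpt x hx).II0)
  obtain ⟨κ, hκ⟩ := hX7 h hB.toFits0 hKsm hKsy hro hpt (fun x hx => (hgt _ hx).1 x rfl) hz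
  have hκ' : ∀ x, B.R ≤ len x → kpf G X.g X.K x = κ (len x) := hκ
  refine isSlice_of_eq hn hEmb (stB n) h hB.toFits0 hKsm hKsy hκ
    (fun r hr => kap_differentiableAt (by omega) h hKsm hκ hr) hro hlam
    (fun x y hx hxy => rad_const (by omega) h (fun z hz => (hpt z hz).glf0) x y hx hxy)
    (fun x hx => (hpt x hx).mom0) (fun x hx => (hpt x hx).row0) (fun x hx i j => ?_)
    (fun r hr => ?_) (fun r hr => ?_)
  · rw [(hpt x hx).K0 i j, trT_eq h hκ hx.le]
    ring
  · obtain ⟨x, hx⟩ := exists_len (n := n) (by omega) (r := r) (B.hR.trans hr).le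
    have h1 := (hgt r hr).1 x hx
    rw [hκ' x (by rw [hx]; exact hr.le), hx] at h1
    exact h1
  · rw [← hconst r hr]
    have h1 : Yav B G X.g X.K r = Vav X.g r * (B.H r ^ 2 - κ r ^ 2) := by
      unfold Yav Vav av
      have h2 : sphI (fun x => trT G X.K x ^ 2) r =
          sphI (fun x => κ r ^ 2 * (1 / rad X.g x)) r := by
        refine sphI_congr (B.hR.trans hr).le fun x hx => ?_
        have hx' : len x = r := hx
        have hxR : B.R ≤ len x := by rw [hx']; exact hr.le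
        have hp := h.ppos x hxR
        have h3 := hκ x hxR
        rw [hx'] at h3
        rw [← h3, mul_pow, Real.sq_sqrt hp.le]
        field_simp
      rw [h2, Vale.Agent.P366.sphI_const_mul]
      ring
    rw [h1]

end Vale.Agent.T4
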