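import Vale.Agent.P366.T6.Sphere2
import Vale.Agent.P366.T6.Y2355
import Vale.Agent.P366.T5.X9355

/-! T6, class Y: the final theorem. -/

open MeasureTheory Metric Filter Topology Set
open scoped ContDiff ENNReal Matrix

noncomputable section
namespace Vale.Agent.T4
open Vale.Agent.P366.Stmt Vale.Agent.P366.T2
open Vale.Agent.P366 (sphI sphM av norm_smul_sph sphI_congr)

variable {n : ℕ}

section

variable {G g K : Field n} {B : Bg n}

/-- the compensating terms of the problem -/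
theorem sphereSlack_eq (h : Lapse G g B.R) (hF : B.Fits0 G)
    (hKs : ∀ x, B.R ≤ len x → ∀ i j, K x i j = K x j i)
    {x : E n} (hx : B.R ≤ len x) (hH : 0 < B.H (len x)) :
    sphereSlack g K x = (2 * B.H (len x))⁻¹ * slk B G g K x := by
  have hp := h.ppos x hx
  have hs : 0 < √(rad g x) := Real.sqrt_pos.2 hp
  have h4 : ∀ l, ∑ i, K x i l * nrm g len i x = bf g K l x := by
    intro l
    unfold bf row
    rw [Finset.mul_sum]
    refine Finset.sum_congr rfl fun i _ => ?_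
    rw [h.nrm_len hx, hKs x hx i l, Real.sqrt_div zero_le_one, Real.sqrt_one]
    ring
  have h5 : ∀ k l, up g k l x - nrm g len k x * nrm g len l x = Sm G k l x := by
    intro k l
    rw [h.nrm_len hx, h.nrm_len hx, h.up_g hx]
    have : nx k x / √(rad g x) * (nx l x / √(rad g x)) = nx k x * nx l x / rad g x := by
      rw [div_mul_div_comm, ← sq, Real.sq_sqrt hp.le]
    rw [this]
    ring
  have h6 : sphereShift g K x = S2 G (bf g K) (bf g K) x := by
    unfold sphereShift S2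
    simp only [h4, h5]
  have h7 : ∑ i, mom g K i x * nrm g len i x =
      √(1 / rad g x) * ∑ j, nx j x * mom g K j x := by
    rw [Finset.mul_sum]
    refine Finset.sum_congr rfl fun i _ => ?_
    rw [h.nrm_len hx, Real.sqrt_div zero_le_one, Real.sqrt_one]
    ring
  unfold sphereSlack slk
  rw [h6, h7, sphereRatio_eq92 h hF hx]
  field_simp

/-- the integral condition in terms of the problem -/
theorem torB_iff (hn : 1 ≤ n) (h : Lapse G g B.R) (hF : B.Fits0 G)
    (hK : ∀ i j, Smooth (fun x => K x i j)) (hKs : ∀ x, B.R ≤ len x → ∀ i j, K x i j = K x j i)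
    {r : ℝ} (hr : B.R ≤ r) (hH : 0 < B.H r) {θ : ℝ}
    (h0 : sph (vol n) r (sphereTorsion g K) ≤ θ * sph (vol n) r (sphereSlack g K)) :
    2 * sphI (tors G g K) r ≤ θ * sphI (slk B G g K) r := by
  have : Nonempty (Fin n) := ⟨⟨0, by omega⟩⟩
  have : Nontrivial (E n) := inferInstance
  have hr0 : 0 ≤ r := B.hR.le.trans hr
  have h1 : sphI (sphereTorsion g K) r = sphI (fun x => (B.H r)⁻¹ * tors G g K x) r := by
    refine sphI_congr hr0 fun x hx => ?_
    have hl : len x = r := hx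
    rw [sphereTorsion_eq92 h hF hK hKs (by rw [hl]; exact hr) (by rw [hl]; exact hH.ne'), hl]
    ring
  have h2 : sphI (fun x => (B.H r)⁻¹ * tors G g K x) r = (B.H r)⁻¹ * sphI (tors G g K) r := by
    unfold sphI
    exact integral_const_mul _ _
  have h3 : sphI (sphereSlack g K) r = sphI (fun x => (2 * B.H r)⁻¹ * slk B G g K x) r := by
    refine sphI_congr hr0 fun x hx => ?_
    have hl : len x = r := hx
    rw [sphereSlack_eq h hF hKs (by rw [hl]; exact hr) (by rw [hl]; exact hH), hl]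
  have h4 : sphI (fun x => (2 * B.H r)⁻¹ * slk B G g K x) r =
      (2 * B.H r)⁻¹ * sphI (slk B G g K) r := by
    unfold sphI
    exact integral_const_mul _ _
  rw [sph_eq_sphI, sph_eq_sphI, h1, h2, h3, h4] at h0
  have h5 := mul_le_mul_of_nonneg_left h0 (by positivity : (0 : ℝ) ≤ 2 * B.H r)
  have e1 : 2 * B.H r * ((B.H r)⁻¹ * sphI (tors G g K) r) = 2 * sphI (tors G g K) r := by
    field_simp
  have e2 : 2 * B.H r * (θ * ((2 * B.H r)⁻¹ * sphI (slk B G g K) r)) =
      θ * sphI (slk B G g K) r := by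
    field_simp
  rw [e1, e2] at h5
  exact h5

/-- the condition on `K` -/
theorem dichY (hn : 1 ≤ n) (h : Lapse G g B.R) (hF : B.Fits0 G)
    (hK : ∀ i j, Smooth (fun x => K x i j)) (hKs : ∀ x, B.R ≤ len x → ∀ i j, K x i j = K x j i)
    (hT : TorsionBound g K B.R) : DichY B G g K := by
  obtain ⟨θ, hθ0, hθ1, hT⟩ := hT
  intro r hr
  have hl : ∀ x : E n, len x = r → B.R ≤ len x := fun x hx => by rw [hx]; exact hr
  rcases hT r hr with h1 | ⟨h1, h2⟩
  · refine Or.inl fun x hx => ?_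
    have := (le_iff92 (K := K) h hF (hl x hx)).1 (h1 x hx)
    rwa [hx] at this
  · have h3 : ∀ x, len x = r → |kpf G g K x| < B.H r := by
      intro x hx
      have := (lt_iff92 (K := K) h hF (hl x hx)).1 (h1 x hx)
      rwa [hx] at this
    refine Or.inr ⟨h3, ?_⟩
    have h0 : 0 < r := B.hR.trans_le hr
    have hH : 0 < B.H r :=
      (abs_nonneg _).trans_lt (h3 (ry ⟨0, by omega⟩ r) (len_ry _ h0))
    exact ⟨θ, hθ0, hθ1, torB_iff hn h hF hK hKs hr hH h2⟩

end

/-- the torsion condition of class X implies the one of class Y -/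
theorem TorsionCond.bound {g K : Field n} {R : ℝ} (h : TorsionCond g K R) :
    TorsionBound g K R := by
  refine ⟨0, le_rfl, one_pos, fun r hr => ?_⟩
  rcases h r hr with h1 | ⟨h1, h2⟩
  · exact Or.inl h1
  · exact Or.inr ⟨h1, by rw [zero_mul]; exact h2⟩

/-- bound and equality case for class Y -/
theorem bothY (hn : 3 ≤ n) {X : Exterior n} {G : Field n}
    {B : Bg n} (h : Lapse G X.g B.R) (hB : B.FitsW G) (hL : B.LamOK G) (hAF : X.IsAF)
    (hDEC : X.DEC) (hT : X.Trapped) {m : ℝ} (hm : X.IsEnergy m)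
    (hR : IsGreatest {r | ∃ x, X.F x = 0 ∧ len x = r} B.R) (hK : TorsionBound X.g X.K B.R)
    (hround : (∀ r, B.R < r → B.lam r ^ 2 = ((n : ℝ) - 1) * B.L2 r ∧
        B.Rh r / 4 + B.L2 r = B.lam r ^ 2) →
      (∀ x, B.R < len x → ctr G (IIf G) (IIf G) x = B.II2 (len x)) →
      B.RoundAt G ∧ ∀ r, B.R < r → B.lam r = ((n : ℝ) - 1) / (2 * B.rho r)) :
    X.Amin ≠ ⊤ ∧ 0 < m ∧
      (X.Amin.toReal / omega n) ^ (((n : ℝ) - 2) / (n - 1)) / 2 ≤ m ∧
      (Outermost X → (X.Amin.toReal / omega n) ^ (((n : ℝ) - 2) / (n - 1)) / 2 = m →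
        IsSlice m X.g X.K {x | B.R < len x}) := by
  have hd : DichY B G X.g X.K := dichY (by omega) h hB.toFits0 (fun i j => (X.smooth i j).2)
    (fun x _ i j => (X.symm x i j).2) hK
  obtain ⟨h1, h2, h3⟩ := penroseY hn (stX3 hn) (stX4 (by omega)) h hB hL hAF hDEC hT hm hR hd
  exact ⟨h1, h2, h3, fun hO heq => rigidY hn (stEmb (by omega)) (stX3 hn) (stX7 hn)
    h hB hL hAF hDEC hT hm hR hd hO heq hround⟩

/-- **Class Y.** -/
theorem finalY (hn : 3 ≤ n) {X : Exterior n} (hAF : X.IsAF)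
    (hDEC : X.DEC) (hT : X.Trapped) {m : ℝ} (hm : X.IsEnergy m) {R₁ : ℝ}
    (hR : IsGreatest {r | ∃ x, X.F x = 0 ∧ len x = r} R₁)
    (hperp : ∀ x, R₁ ≤ len x → ∀ i, ∑ j, X.g x i j * x j = radial X.g x * x i)
    (hleaf : (∃ Γ, TransGroup n Γ ∧ InvUnder Γ R₁ (spherical X.g)) ∨
      ∃ ρ : ℝ → ℝ, (∀ r, R₁ ≤ r → 0 < ρ r) ∧
        (∀ x, R₁ ≤ len x →
          (mat (unitLapse X.g) x).det = (ρ (len x) / len x) ^ (2 * (n - 1))) ∧
        ∀ r, R₁ < r → sph (vol n) r (sphereScal X.g) / omega n ≤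
          ((n : ℝ) - 1) * ((n : ℝ) - 2) / ρ r ^ 2)
    (hK : TorsionBound X.g X.K R₁) :
    X.Amin ≠ ⊤ ∧ 0 < m ∧
      (X.Amin.toReal / omega n) ^ (((n : ℝ) - 2) / (n - 1)) / 2 ≤ m ∧
      (Outermost X → (X.Amin.toReal / omega n) ^ (((n : ℝ) - 2) / (n - 1)) / 2 = m →
        IsSlice m X.g X.K {x | R₁ < len x}) := by
  have hout := Vale.Agent.C92.outside_nonneg (by omega) X hR
  have hR0 : 0 < R₁ :=
    (Vale.Agent.P366.Bridge.toRaw X).R1_pos (by omega) (Vale.Agent.P366.Bridge.raw_R1 X hR)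
  have hpos : ∀ x, R₁ ≤ len x → (mat X.g x).PosDef := fun x hx => X.pos x (hout x hx)
  have hgs : ∀ i j, Smooth (fun x => X.g x i j) := fun i j => (X.smooth i j).1
  have hgsy : ∀ x i j, X.g x i j = X.g x j i := fun x i j => (X.symm x i j).1
  have hp : PerpAt R₁ X.g := hperp
  have hl : Lapse (bgF R₁ X.g) X.g R₁ := lapse_bgF hR0 hgs hgsy hpos (hp.nx hR0)
  have hll : Lapse (bgF R₁ X.g) (bgF R₁ X.g) R₁ :=
    lapse_self hR0 hl.Gs hl.symm hl.pos hl.unit
  rcases hleaf with ⟨Γ, hΓ, htan⟩ | ⟨ρ, hρ, hdens, hcurv⟩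
  · have hinv : InvUnder Γ R₁ (bgF R₁ X.g) := by
      refine inv_bgF hR0 hΓ.orth ?_
      rw [← spherical_eq]
      exact htan
    obtain ⟨B, rfl, hB, hL, hE⟩ := exists_bg_trans hn hΓ hl.hR hl.Gs (bgF_symm hgsy) hl.pos
      hl.unit hinv
    exact bothY hn hl (hB.toFitsW (by omega)) hL hAF hDEC hT hm hR hK
      (fun h1 _ => ⟨fun x hx i j => (hE _ hx (h1 _ hx).1).2 x rfl i j,
        fun r hr => (hE r hr (h1 r hr).1).1⟩)
  · have hd : ∀ x, R₁ ≤ len x → (mat (bgF R₁ X.g) x).det =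
        (fun r => (ρ r / r) ^ (2 * (n - 1))) (len x) := by
      intro x hx
      simp only
      rw [← hdens x hx]
      unfold mat
      rw [unitLapse_eq hR0 hx]
    have hc : ∀ r, R₁ < r → av (leafScal (bgF R₁ X.g)) r ≤ ((n : ℝ) - 1) * ((n : ℝ) - 2) /
        (r ^ 2 * (fun r => (ρ r / r) ^ (2 * (n - 1))) r ^ (1 / ((n : ℝ) - 1))) := by
      intro r hr
      have hr0 : 0 < r := hR0.trans hr
      have h1 := hcurv r hr
      have e1 : av (leafScal (bgF R₁ X.g)) r = sph (vol n) r (sphereScal X.g) / omega n := by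
        rw [sph_eq_sphI, Vale.Agent.P366.omega_eq]
        unfold av
        congr 1
        refine sphI_congr hr0.le fun x hx => ?_
        exact (sphereScal_eq hll (by unfold len; rw [hx]; exact hr)).symm
      have e2 : ((ρ r / r) ^ (2 * (n - 1))) ^ (1 / ((n : ℝ) - 1)) = (ρ r / r) ^ 2 := by
        have hq : 0 < ρ r / r := div_pos (hρ r hr.le) hr0
        have h3 : ((n - 1 : ℕ) : ℝ) = (n : ℝ) - 1 := by
          rw [Nat.cast_sub (by omega)]; push_cast; ring
        rw [pow_mul, ← h3, one_div]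
        exact Real.pow_rpow_inv_natCast (by positivity) (by omega)
      rw [e1]
      refine h1.trans (le_of_eq ?_)
      simp only [e2]
      congr 1
      field_simp
    obtain ⟨B, rfl, hB, hL, hII2, hlam⟩ := fitsW_of_density' (by omega) hl hd hc
    refine bothY hn hl hB hL hAF hDEC hT hm hR hK
      (fun _ hII => ⟨roundAt_of_umbilic' hn hl hB.toFits0 hAF fun x hx => ?_,
        fun r hr => hlam r hr.le⟩)
    rw [hII x hx, hII2]

end Vale.Agent.T4
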